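import Mathlib

/-!
P225, module E: matrices with the operator norm of the euclidean space, Riccati solutions and
their backward maps.
-/

noncomputable section

namespace Vale.Agent.P225

open scoped ComplexOrder Matrix.Norms.L2Operator

/-- Square complex matrices; the norm is the operator norm of `Matrix.Norms.L2Operator`. -/
abbrev Op (n : Type*) := Matrix n n ℂ

variable {n : Type*} [Fintype n] [DecidableEq n]

/-- `W` solves the Riccati equation `W' = A - W² - ν W` on `[a, b]`. -/
def IsRiccati (A : ℝ → Op n) (ν : ℝ → ℝ) (W : ℝ → Op n) (a b : ℝ) : Prop :=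
  ∀ t ∈ Set.Icc a b, HasDerivAt W (A t - W t * W t - ν t • W t) t

/-- `R` is the backward map of `W` from `a`: the inverse of the propagator of `c' = W c`. -/
def IsBack (W R : ℝ → Op n) (a b : ℝ) : Prop :=
  R a = 1 ∧ ∀ t ∈ Set.Icc a b, HasDerivAt R (-(R t * W t)) t

end Vale.Agent.P225
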