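import Mathlib

/-!
P225, module E: the two exact identities for a pair of Riccati solutions, in any real Banach algebra.

`P` stands for the adjoint of the backward map of `W`, `Q` for the backward map of the reference
`V`, so no inverse and no forward map occurs.
-/

noncomputable section

namespace Vale.Agent.P225

open Set

variable {𝔸 : Type*} [NormedRing 𝔸] [NormedAlgebra ℝ 𝔸]

/-- A solution of a linear equation with locally bounded coefficient vanishes if it starts at `0`. -/
theorem eq_zero_of_deriv_le {E : Type*} [NormedAddCommGroup E] [NormedSpace ℝ E]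
    {f f' : ℝ → E} {K : ℝ → ℝ} {a b : ℝ} (hf : ∀ t ∈ Icc a b, HasDerivAt f (f' t) t)
    (hK : ContinuousOn K (Icc a b)) (hle : ∀ t ∈ Icc a b, ‖f' t‖ ≤ K t * ‖f t‖) (h0 : f a = 0) :
    ∀ t ∈ Icc a b, f t = 0 := by
  intro t ht
  obtain ⟨C, hC⟩ := (isCompact_Icc.image_of_continuousOn hK).bddAbove
  have := norm_le_gronwallBound_of_norm_deriv_right_le (f := f) (f' := f') (δ := 0) (K := C)
    (ε := 0) (fun s hs => (hf s hs).continuousAt.continuousWithinAt)
    (fun s hs => (hf s (Ico_subset_Icc_self hs)).hasDerivWithinAt) (by simp [h0])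
    (fun s hs => by
      have hs' := Ico_subset_Icc_self hs
      have := hC (mem_image_of_mem K hs')
      calc ‖f' s‖ ≤ K s * ‖f s‖ := hle s hs'
        _ ≤ C * ‖f s‖ + 0 := by rw [add_zero]; exact mul_le_mul_of_nonneg_right this (norm_nonneg _))
    t ht
  simpa [gronwallBound_ε0_δ0] using this

/-- Identity (I1): the difference of two Riccati solutions with the same coefficients. -/
theorem riccati_diff {W V A P Q : ℝ → 𝔸} {ν e : ℝ → ℝ} {a b : ℝ}
    (hν : ContinuousOn ν (Icc a b))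
    (hW : ∀ t ∈ Icc a b, HasDerivAt W (A t - W t * W t - ν t • W t) t)
    (hV : ∀ t ∈ Icc a b, HasDerivAt V (A t - V t * V t - ν t • V t) t)
    (hP : ∀ t ∈ Icc a b, HasDerivAt P (-(W t * P t)) t)
    (hQ : ∀ t ∈ Icc a b, HasDerivAt Q (-(Q t * V t)) t)
    (he : ∀ t ∈ Icc a b, HasDerivAt e (-ν t * e t) t)
    (he0 : e a = 1) (hP0 : P a = 1) (hQ0 : Q a = 1) :
    ∀ t ∈ Icc a b, W t - V t = e t • (P t * (W a - V a) * Q t) := by
  intro t ht
  refine sub_eq_zero.1 (eq_zero_of_deriv_le
    (f := fun s => W s - V s - e s • (P s * (W a - V a) * Q s))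
    (f' := fun s => -(W s * (W s - V s - e s • (P s * (W a - V a) * Q s))
        + (W s - V s - e s • (P s * (W a - V a) * Q s)) * V s)
      - ν s • (W s - V s - e s • (P s * (W a - V a) * Q s)))
    (K := fun s => ‖W s‖ + ‖V s‖ + ‖ν s‖) ?_ ?_ ?_ ?_ t ht)
  · intro s hs
    refine (((hW s hs).sub (hV s hs)).sub
      ((he s hs).smul (((hP s hs).mul_const _).mul (hQ s hs)))).congr_deriv ?_
    simp only [Pi.mul_apply, mul_sub, sub_mul, mul_smul_comm, smul_mul_assoc,
      mul_neg, neg_mul, mul_assoc]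
    module
  · exact ((ContinuousOn.norm (fun s hs => (hW s hs).continuousAt.continuousWithinAt)).add
      (ContinuousOn.norm (fun s hs => (hV s hs).continuousAt.continuousWithinAt))).add hν.norm
  · intro s _
    set Z := W s - V s - e s • (P s * (W a - V a) * Q s)
    calc ‖-(W s * Z + Z * V s) - ν s • Z‖ ≤ ‖-(W s * Z + Z * V s)‖ + ‖ν s • Z‖ := norm_sub_le _ _
      _ ≤ ‖W s‖ * ‖Z‖ + ‖Z‖ * ‖V s‖ + ‖ν s‖ * ‖Z‖ := by
          rw [norm_neg, norm_smul]
          gcongr
          exact (norm_add_le _ _).trans (add_le_add (norm_mul_le _ _) (norm_mul_le _ _))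
      _ = (‖W s‖ + ‖V s‖ + ‖ν s‖) * ‖Z‖ := by ring
  · simp [he0, hP0, hQ0]

/-- Identity (I2) in differential form, for finitely many jumps of the reference: if the difference
`W - V` is `∑ e_s • (P_s J_s Q_s)` and `R P_s⁻¹` are tracked by `G`, the backward maps differ by
`∑ R_s G_s J_s Q_s`. Here `R` is the backward map of `W`, `R_s` its value at the jump, `S_s` the
backward map of `W` from the jump (so `R = R_s S_s`) and `P_s` its adjoint. -/
theorem backward_diff {ι : Type*} [Fintype ι] {W V R Q : ℝ → 𝔸} {S P Qs G : ι → ℝ → 𝔸}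
    {es : ι → ℝ → ℝ} {Rs J : ι → 𝔸} {a b : ℝ}
    (hW : ContinuousOn V (Icc a b))
    (hR : ∀ t ∈ Icc a b, HasDerivAt R (-(R t * W t)) t)
    (hQ : ∀ t ∈ Icc a b, HasDerivAt Q (-(Q t * V t)) t)
    (hQs : ∀ i, ∀ t ∈ Icc a b, HasDerivAt (Qs i) (-(Qs i t * V t)) t)
    (hG : ∀ i, ∀ t ∈ Icc a b, HasDerivAt (G i) (es i t • (S i t * P i t)) t)
    (hfac : ∀ i, ∀ t ∈ Icc a b, Rs i * S i t = R t)
    (hD : ∀ t ∈ Icc a b, W t - V t = ∑ i, es i t • (P i t * J i * Qs i t))
    (h0 : R a + ∑ i, Rs i * G i a * J i * Qs i a = Q a) :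
    ∀ t ∈ Icc a b, R t + ∑ i, Rs i * G i t * J i * Qs i t = Q t := by
  intro t ht
  refine sub_eq_zero.1 (eq_zero_of_deriv_le
    (f := fun s => R s + ∑ i, Rs i * G i s * J i * Qs i s - Q s)
    (f' := fun s => -((R s + ∑ i, Rs i * G i s * J i * Qs i s - Q s) * V s))
    (K := fun s => ‖V s‖) ?_ hW.norm ?_ (sub_eq_zero.2 h0) t ht)
  · intro s hs
    refine (((hR s hs).add (HasDerivAt.fun_sum fun i _ =>
      ((((hG i s hs).const_mul (Rs i)).mul_const (J i)).mul (hQs i s hs)))).sub
      (hQ s hs)).congr_deriv ?_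
    have hW' : W s = V s + ∑ i, es i s • (P i s * J i * Qs i s) := by rw [← hD s hs]; abel
    rw [hW', mul_add, Finset.mul_sum, Finset.sum_add_distrib]
    have e1 : ∀ i, R s * es i s • (P i s * J i * Qs i s) =
        Rs i * es i s • (S i s * P i s) * J i * Qs i s := by
      intro i
      rw [← hfac i s hs]
      simp only [mul_smul_comm, smul_mul_assoc, mul_assoc]
    rw [Finset.sum_congr rfl fun i _ => e1 i]
    simp only [sub_mul, add_mul, Finset.sum_mul, mul_neg, mul_assoc, Finset.sum_neg_distrib]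
    abel
  · intro s _
    rw [norm_neg, mul_comm (‖V s‖)]
    exact norm_mul_le _ _

end Vale.Agent.P225
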