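import Mathlib

/-!
P225, module E: global solutions of linear differential equations in a Banach space.
-/

noncomputable section

namespace Vale.Agent.P225

open Set Metric Topology
open scoped NNReal

/-- The radial retraction onto the ball of radius `R`. -/
def retract {E : Type*} [NormedAddCommGroup E] [NormedSpace ℝ E] (R : ℝ) (x : E) : E :=
  (R / max R ‖x‖) • x

section
variable {E : Type*} [NormedAddCommGroup E] [NormedSpace ℝ E]

theorem retract_eq {R : ℝ} (hR : 0 < R) {x : E} (hx : ‖x‖ ≤ R) : retract R x = x := by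
  rw [retract, max_eq_left hx, div_self hR.ne', one_smul]

theorem norm_retract_le {R : ℝ} (hR : 0 < R) (x : E) :
    ‖retract R x‖ ≤ ‖x‖ ∧ ‖retract R x‖ ≤ R := by
  have hm : 0 < max R ‖x‖ := hR.trans_le (le_max_left _ _)
  rw [retract, norm_smul, Real.norm_eq_abs, abs_of_nonneg (div_nonneg hR.le hm.le)]
  refine ⟨mul_le_of_le_one_left (norm_nonneg _) ((div_le_one hm).2 (le_max_left _ _)), ?_⟩
  rw [div_mul_eq_mul_div, div_le_iff₀ hm]
  exact mul_le_mul_of_nonneg_left (le_max_right _ _) hR.le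

theorem norm_retract_sub {R : ℝ} (hR : 0 < R) (x y : E) :
    ‖retract R x - retract R y‖ ≤ 2 * ‖x - y‖ := by
  have hx : 0 < max R ‖x‖ := hR.trans_le (le_max_left _ _)
  have hy : 0 < max R ‖y‖ := hR.trans_le (le_max_left _ _)
  have e : retract R x - retract R y =
      (R / max R ‖x‖) • (x - y) + (R / max R ‖x‖ - R / max R ‖y‖) • y := by
    rw [retract, retract, smul_sub, sub_smul]; abel
  rw [e, two_mul]
  refine (norm_add_le _ _).trans (add_le_add ?_ ?_)
  · rw [norm_smul, Real.norm_eq_abs, abs_of_nonneg (div_nonneg hR.le hx.le)]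
    exact mul_le_of_le_one_left (norm_nonneg _) ((div_le_one hx).2 (le_max_left _ _))
  · have hd : |max R ‖y‖ - max R ‖x‖| ≤ ‖x - y‖ := by
      rw [abs_sub_comm]
      refine (abs_max_sub_max_le_max _ _ _ _).trans (max_le (by simp) ?_)
      exact abs_norm_sub_norm_le x y
    rw [norm_smul, Real.norm_eq_abs, div_sub_div _ _ hx.ne' hy.ne', abs_div,
      abs_of_pos (mul_pos hx hy), div_mul_eq_mul_div, div_le_iff₀ (mul_pos hx hy),
      show R * max R ‖y‖ - max R ‖x‖ * R = R * (max R ‖y‖ - max R ‖x‖) by ring, abs_mul,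
      abs_of_pos hR]
    calc R * |max R ‖y‖ - max R ‖x‖| * ‖y‖ ≤ max R ‖x‖ * ‖x - y‖ * max R ‖y‖ :=
          mul_le_mul (mul_le_mul (le_max_left _ _) hd (abs_nonneg _) hx.le) (le_max_right _ _)
            (norm_nonneg _) (by positivity)
      _ = _ := by ring

end

variable {E : Type*} [NormedAddCommGroup E] [NormedSpace ℝ E] [CompleteSpace E]

/-- The forced linear equation on a compact interval around the initial time. -/
theorem exists_affine_ode_Icc (L : ℝ → E →L[ℝ] E) (hL : Continuous L) (f : ℝ → E)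
    (hf : Continuous f) (a : ℝ) (x0 : E) {T : ℝ} (hT : 0 ≤ T) :
    ∃ x : ℝ → E, x a = x0 ∧
      ∀ t ∈ Ioo (a - T) (a + T), HasDerivAt x (L t (x t) + f t) t := by
  obtain ⟨K₁, hK₁⟩ :=
    isCompact_Icc.exists_bound_of_continuousOn (hL.continuousOn (s := Icc (a - T) (a + T)))
  obtain ⟨K₂, hK₂⟩ :=
    isCompact_Icc.exists_bound_of_continuousOn (hf.continuousOn (s := Icc (a - T) (a + T)))
  have ha : a ∈ Icc (a - T) (a + T) := ⟨by linarith, by linarith⟩
  have hK₁0 : 0 ≤ K₁ := (norm_nonneg _).trans (hK₁ a ha)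
  have hK₂0 : 0 ≤ K₂ := (norm_nonneg _).trans (hK₂ a ha)
  set R := max (gronwallBound ‖x0‖ K₁ K₂ T) ‖x0‖ + 1 with hR
  have hR0 : 0 < R := by have := norm_nonneg x0; linarith [le_max_right (gronwallBound ‖x0‖ K₁ K₂ T) ‖x0‖]
  set F : ℝ → E → E := fun t x => L t (retract R x) + f t with hF
  have hFle : ∀ t ∈ Icc (a - T) (a + T), ∀ x,
      ‖F t x‖ ≤ K₁ * ‖x‖ + K₂ ∧ ‖F t x‖ ≤ K₁ * R + K₂ := fun t ht x => by
    have h1 := (L t).le_opNorm (retract R x)
    have h2 := mul_le_mul (hK₁ t ht) (norm_retract_le hR0 x).1 (norm_nonneg _) hK₁0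
    have h3 := mul_le_mul (hK₁ t ht) (norm_retract_le hR0 x).2 (norm_nonneg _) hK₁0
    have h4 := norm_add_le (L t (retract R x)) (f t)
    have h5 := hK₂ t ht
    exact ⟨by linarith, by linarith⟩
  have hpl : IsPicardLindelof F (⟨a, ha⟩ : Icc (a - T) (a + T)) x0
      (((K₁ * R + K₂).toNNReal) * T.toNNReal) 0 (K₁ * R + K₂).toNNReal (K₁ * 2).toNNReal := by
    refine ⟨fun t ht => LipschitzOnWith.of_dist_le_mul fun x _ y _ => ?_, fun x _ => ?_,
      fun t ht x _ => (hFle t ht x).2.trans (Real.le_coe_toNNReal _), ?_⟩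
    · rw [dist_eq_norm, dist_eq_norm, Real.coe_toNNReal _ (by positivity)]
      simp only [hF, add_sub_add_right_eq_sub, ← map_sub]
      calc ‖L t (retract R x - retract R y)‖ ≤ ‖L t‖ * ‖retract R x - retract R y‖ :=
            (L t).le_opNorm _
        _ ≤ K₁ * (2 * ‖x - y‖) :=
            mul_le_mul (hK₁ t ht) (norm_retract_sub hR0 x y) (norm_nonneg _) hK₁0
        _ = _ := by ring
    · exact ((hL.clm_apply continuous_const).add hf).continuousOn
    · simp only [NNReal.coe_zero, sub_zero, NNReal.coe_mul, Real.coe_toNNReal _ hT]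
      refine mul_le_mul_of_nonneg_left (max_le ?_ ?_) (NNReal.coe_nonneg _) <;> simp
  obtain ⟨x, hx0, hx⟩ := hpl.exists_eq_forall_mem_Icc_hasDerivWithinAt₀
  have hxc : ContinuousOn x (Icc (a - T) (a + T)) := fun t ht => (hx t ht).continuousWithinAt
  have hder : ∀ t ∈ Ioo (a - T) (a + T), HasDerivAt x (F t (x t)) t := fun t ht =>
    (hx t (Ioo_subset_Icc_self ht)).hasDerivAt (Icc_mem_nhds ht.1 ht.2)
  -- forward and backward bounds
  have hbd : ∀ t ∈ Ioo (a - T) (a + T), ‖x t‖ ≤ gronwallBound ‖x0‖ K₁ K₂ T := by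
    intro t ht
    have hmono := gronwallBound_mono (ε := K₂) (norm_nonneg x0) hK₂0 hK₁0
    rcases le_total a t with h | h
    · refine le_trans ?_ (hmono (show t - a ≤ T by linarith [ht.2]))
      refine norm_le_gronwallBound_of_norm_deriv_right_le (f := x) (f' := fun s => F s (x s))
        (hxc.mono (Icc_subset_Icc (by linarith) ht.2.le)) (fun s hs => ?_)
        (le_of_eq (by rw [hx0])) (fun s hs => ?_) t ⟨h, le_rfl⟩
      · exact (hder s ⟨by linarith [hs.1, ht.1, ht.2], by linarith [hs.2, ht.2]⟩).hasDerivWithinAt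
      · exact (hFle s ⟨by linarith [hs.1], by linarith [hs.2, ht.2]⟩ _).1
    · refine le_trans ?_ (hmono (show a - t ≤ T by linarith [ht.1]))
      have := norm_le_gronwallBound_of_norm_deriv_right_le (f := fun s => x (a - s))
        (f' := fun s => -F (a - s) (x (a - s))) (δ := ‖x0‖) (K := K₁) (ε := K₂) (a := 0) (b := a - t)
        (hxc.comp (continuous_const.sub continuous_id).continuousOn fun s hs =>
          ⟨show a - T ≤ a - s by linarith [hs.2, ht.1],
            show a - s ≤ a + T by linarith [hs.1]⟩)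
        (fun s hs => by
          have h1 := hder (a - s) ⟨by linarith [hs.2, ht.1], by linarith [hs.1, ht.1, ht.2, h]⟩
          exact (by simpa using h1.comp_const_sub a s : HasDerivAt (fun u => x (a - u))
            (-F (a - s) (x (a - s))) s).hasDerivWithinAt)
        (by simp [hx0]) (fun s hs => by
          rw [norm_neg]
          exact (hFle (a - s) ⟨by linarith [hs.2, ht.1], by linarith [hs.1]⟩ _).1)
        (a - t) ⟨by linarith, le_rfl⟩
      simpa using this
  refine ⟨x, hx0, fun t ht => ?_⟩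
  have e : retract R (x t) = x t := retract_eq hR0 (by
    linarith [hbd t ht, le_max_left (gronwallBound ‖x0‖ K₁ K₂ T) ‖x0‖])
  simpa [hF, e] using hder t ht

/-- Forced version. -/
theorem exists_affine_ode (L : ℝ → E →L[ℝ] E) (hL : Continuous L) (f : ℝ → E) (hf : Continuous f)
    (a : ℝ) (x0 : E) : ∃ x : ℝ → E, x a = x0 ∧ ∀ t, HasDerivAt x (L t (x t) + f t) t := by
  choose z hz0 hz using fun n : ℕ =>
    exists_affine_ode_Icc L hL f hf a x0 (T := (n : ℝ) + 1) (by positivity)
  have agree : ∀ n k : ℕ, n ≤ k → EqOn (z n) (z k) (Ioo (a - (n + 1)) (a + (n + 1))) := by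
    intro n k hk
    have hkk : (n : ℝ) ≤ k := by exact_mod_cast hk
    obtain ⟨K, hK⟩ := isCompact_Icc.exists_bound_of_continuousOn
      (hL.continuousOn (s := Icc (a - (n + 1)) (a + (n + 1))))
    refine ODE_solution_unique_of_mem_Ioo (v := fun t x => L t x + f t) (s := fun _ => univ)
      (K := K.toNNReal) (t₀ := a) (fun t ht => ?_)
      ⟨by linarith [(Nat.cast_nonneg n : (0 : ℝ) ≤ n)], by linarith [(Nat.cast_nonneg n : (0 : ℝ) ≤ n)]⟩
      (fun t ht => ⟨hz n t ht, trivial⟩)
      (fun t ht => ⟨hz k t ⟨by linarith [ht.1], by linarith [ht.2]⟩, trivial⟩) (by rw [hz0, hz0])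
    refine LipschitzOnWith.of_dist_le_mul fun x _ y _ => ?_
    rw [dist_eq_norm, dist_eq_norm, add_sub_add_right_eq_sub, ← map_sub]
    exact ((L t).le_opNorm _).trans (mul_le_mul_of_nonneg_right
      ((hK t (Ioo_subset_Icc_self ht)).trans (Real.le_coe_toNNReal K)) (norm_nonneg _))
  let idx : ℝ → ℕ := fun t => ⌈|t - a|⌉₊
  refine ⟨fun t => z (idx t) t, hz0 _, fun t => ?_⟩
  have hin : ∀ s, s ∈ Ioo (a - (idx s + 1 : ℝ)) (a + (idx s + 1)) := by
    intro s
    have := Nat.le_ceil |s - a|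
    constructor <;> linarith [neg_abs_le (s - a), le_abs_self (s - a)]
  have ev : (fun s => z (idx s) s) =ᶠ[𝓝 t] z (idx t) := by
    filter_upwards [Ioo_mem_nhds (hin t).1 (hin t).2] with s hs
    rcases le_total (idx s) (idx t) with h | h
    · exact agree _ _ h (hin s)
    · exact (agree _ _ h hs).symm
  exact (hz (idx t) t (hin t)).congr_of_eventuallyEq ev

/-- A linear equation with continuous coefficient has a global solution with prescribed value. -/
theorem exists_linear_ode (L : ℝ → E →L[ℝ] E) (hL : Continuous L) (a : ℝ) (x0 : E) :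
    ∃ x : ℝ → E, x a = x0 ∧ ∀ t, HasDerivAt x (L t (x t)) t := by
  obtain ⟨x, hx0, hx⟩ := exists_affine_ode L hL (fun _ => 0) continuous_const a x0
  exact ⟨x, hx0, fun t => by simpa using hx t⟩

end Vale.Agent.P225
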