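import Vale.Agent.P225.Riccati.Basic
import Vale.Agent.P225.Riccati.Identities
import Vale.Agent.P225.Riccati.Solve.Tools

/-!
P225, module E: existence of nonnegative Riccati solutions (from the linear equation
`Ψ'' + ν Ψ' = A Ψ`, no blow-up because `‖Ψ v‖` is nondecreasing), uniqueness, and the backward map.
-/

noncomputable section

namespace Vale.Agent.P225

open Set Matrix
open scoped ComplexOrder Matrix.Norms.L2Operator

variable {n : Type*} [Fintype n] [DecidableEq n] {A W V R : ℝ → Op n} {ν : ℝ → ℝ} {a b : ℝ}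

/-- Existence on every interval to the right, with nonnegative value. -/
theorem exists_riccati (hA : Continuous A) (hν : Continuous ν) (hA0 : ∀ t, (A t).PosSemidef)
    {W0 : Op n} (hW0 : W0.PosSemidef) (a b : ℝ) :
    ∃ W : ℝ → Op n, W a = W0 ∧ IsRiccati A ν W a b ∧ ∀ t ∈ Icc a b, (W t).PosSemidef := by
  obtain ⟨x, hx0, hx⟩ := exists_linear_ode
    (fun t => (ContinuousLinearMap.snd ℝ (Op n) (Op n)).prod
      ((ContinuousLinearMap.mul ℝ (Op n) (A t)).comp (ContinuousLinearMap.fst ℝ (Op n) (Op n))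
        - ν t • ContinuousLinearMap.snd ℝ (Op n) (Op n)))
    (continuous_clm_apply.2 fun y => by
      simp only [ContinuousLinearMap.prod_apply, _root_.sub_apply, _root_.smul_apply,
        ContinuousLinearMap.comp_apply, ContinuousLinearMap.coe_fst', ContinuousLinearMap.coe_snd',
        ContinuousLinearMap.mul_apply']
      fun_prop) a (1, W0)
  set Ψ := fun t => (x t).1 with hΨdef
  set Φ := fun t => (x t).2 with hΦdef
  have hΨ : ∀ t, HasDerivAt Ψ (Φ t) t := fun t => by
    simpa [hΨdef, hΦdef, Function.comp_def] using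
      (ContinuousLinearMap.fst ℝ (Op n) (Op n)).hasFDerivAt.comp_hasDerivAt t (hx t)
  have hΦ : ∀ t, HasDerivAt Φ (A t * Ψ t - ν t • Φ t) t := fun t => by
    simpa [hΨdef, hΦdef, Function.comp_def] using
      (ContinuousLinearMap.snd ℝ (Op n) (Op n)).hasFDerivAt.comp_hasDerivAt t (hx t)
  set e := fun t => Real.exp (∫ u in a..t, ν u) with hedef
  have he : ∀ t, HasDerivAt e (e t * ν t) t := fun t =>
    (hν.integral_hasStrictDerivAt a t).hasDerivAt.exp
  set K := fun t => e t • (star (Ψ t) * Φ t) with hKdef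
  have hK : ∀ t, HasDerivAt K
      (e t • (star (Φ t) * Φ t + star (Ψ t) * A t * Ψ t)) t := fun t => by
    refine ((he t).smul ((hΨ t).star.mul (hΦ t))).congr_deriv ?_
    simp only [Pi.mul_apply, mul_sub, mul_smul_comm, mul_assoc]
    module
  have hKpos : ∀ t ∈ Icc a b, (K t).PosSemidef := posSemidef_of_deriv (fun t _ => hK t)
    (fun t _ => posSemidef_real_smul
      ((star_mul_self_posSemidef _).add (star_conj_posSemidef (hA0 t) _)) (Real.exp_pos _).le)
    (by simpa [hKdef, hedef, hΨdef, hΦdef, hx0] using hW0)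
  have hGpos : ∀ t ∈ Icc a b, (star (Ψ t) * Ψ t - 1).PosSemidef := by
    refine posSemidef_of_deriv (f' := fun t => (2 * (e t)⁻¹) • K t) (fun t ht => ?_)
      (fun t ht => posSemidef_real_smul (hKpos t ht) (by have := Real.exp_pos (∫ u in a..t, ν u); positivity))
      (by simp [hΨdef, hx0, Matrix.PosSemidef.zero])
    refine (((hΨ t).star.mul (hΨ t)).sub_const (1 : Op n)).congr_deriv ?_
    have h1 : star (Φ t) * Ψ t = star (Ψ t) * Φ t := by
      have h2 := (hKpos t ht).1.eq
      rw [← star_eq_conjTranspose, hKdef] at h2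
      simp only [star_smul, star_trivial, star_mul, star_star] at h2
      exact smul_right_injective _ (Real.exp_pos _).ne' h2
    have he0 : e t ≠ 0 := (Real.exp_pos _).ne'
    simp only [hKdef, smul_smul, h1]
    rw [mul_assoc, inv_mul_cancel₀ he0, mul_one, two_smul]
  have hunit : ∀ t ∈ Icc a b, IsUnit (Ψ t) := fun t ht => by
    have h := (Matrix.PosDef.one.add_posSemidef (hGpos t ht)).isUnit
    rw [add_sub_cancel, isUnit_iff_isUnit_det, det_mul] at h
    exact (isUnit_iff_isUnit_det _).2 (isUnit_of_mul_isUnit_right h)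
  refine ⟨fun t => Φ t * Ring.inverse (Ψ t), by simp [hΨdef, hΦdef, hx0], fun t ht => ?_,
    fun t ht => ?_⟩
  · obtain ⟨u, hu⟩ := hunit t ht
    have hinv := (hasFDerivAt_ringInverse (𝕜 := ℝ) u).comp_hasDerivAt_of_eq t (hΨ t) hu
    refine ((hΦ t).mul hinv).congr_deriv ?_
    simp only [← hu, Function.comp_apply, Ring.inverse_unit, _root_.neg_apply,
      ContinuousLinearMap.mulLeftRight_apply, sub_mul, smul_mul_assoc, mul_assoc, Units.mul_inv,
      mul_one, mul_neg]
    abel
  · obtain ⟨u, hu⟩ := hunit t ht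
    have h := star_conj_posSemidef (posSemidef_real_smul (hKpos t ht)
      (inv_nonneg.2 (Real.exp_pos (∫ v in a..t, ν v)).le)) (↑u⁻¹ : Op n)
    have e1 : star (↑u⁻¹ : Op n) * star (u : Op n) = 1 := by
      rw [← star_mul, Units.mul_inv, star_one]
    simp only []
    rw [← hu, Ring.inverse_unit]
    simp only [hKdef, hedef, inv_smul_smul₀ (Real.exp_pos _).ne', ← hu] at h
    rwa [← mul_assoc (star (↑u⁻¹ : Op n)), e1, one_mul] at h

theorem riccati_unique (hν : ContinuousOn ν (Icc a b)) (hW : IsRiccati A ν W a b)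
    (hV : IsRiccati A ν V a b) (h : W a = V a) : EqOn W V (Icc a b) := by
  intro t ht
  refine sub_eq_zero.1 (eq_zero_of_deriv_le (f := fun s => W s - V s)
    (f' := fun s => -(W s * (W s - V s) + (W s - V s) * V s) - ν s • (W s - V s))
    (K := fun s => ‖W s‖ + ‖V s‖ + ‖ν s‖) (fun s hs => ?_) ?_ (fun s _ => ?_)
    (sub_eq_zero.2 h) t ht)
  · refine ((hW s hs).sub (hV s hs)).congr_deriv ?_
    simp only [mul_sub, sub_mul]
    module
  · exact ((ContinuousOn.norm (fun s hs => (hW s hs).continuousAt.continuousWithinAt)).add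
      (ContinuousOn.norm (fun s hs => (hV s hs).continuousAt.continuousWithinAt))).add hν.norm
  · set Z := W s - V s
    calc ‖-(W s * Z + Z * V s) - ν s • Z‖ ≤ ‖-(W s * Z + Z * V s)‖ + ‖ν s • Z‖ := norm_sub_le _ _
      _ ≤ ‖W s‖ * ‖Z‖ + ‖Z‖ * ‖V s‖ + ‖ν s‖ * ‖Z‖ := by
          rw [norm_neg, norm_smul]
          gcongr
          exact (norm_add_le _ _).trans (add_le_add (norm_mul_le _ _) (norm_mul_le _ _))
      _ = (‖W s‖ + ‖V s‖ + ‖ν s‖) * ‖Z‖ := by ring

/-- The backward map exists. -/
theorem exists_back (hW : ContinuousOn W (Icc a b)) :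
    ∃ R : ℝ → Op n, IsBack W R a b := by
  obtain ⟨W', hW'c, hW'⟩ := exists_ext hW
  obtain ⟨R, h0, hR⟩ := exists_linear_ode
    (fun t => -((ContinuousLinearMap.mul ℝ (Op n)).flip (W' t)))
    (((ContinuousLinearMap.mul ℝ (Op n)).flip.continuous.comp hW'c).neg) a 1
  exact ⟨R, h0, fun t ht => by simpa [hW' ht] using hR t⟩

/-- Backward maps compose. -/
theorem back_trans {c : ℝ} {R' : ℝ → Op n} (hW : ContinuousOn W (Icc a c)) (hab : a ≤ b)
    (hbc : b ≤ c) (hR : IsBack W R a c) (hR' : IsBack W R' b c) :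
    ∀ t ∈ Icc b c, R t = R b * R' t := by
  intro t ht
  refine sub_eq_zero.1 (eq_zero_of_deriv_le (f := fun s => R s - R b * R' s)
    (f' := fun s => -((R s - R b * R' s) * W s)) (K := fun s => ‖W s‖) (fun s hs => ?_)
    ((hW.mono (Icc_subset_Icc hab le_rfl)).norm) (fun s _ => ?_) (by simp [hR'.1]) t ht)
  · refine ((hR.2 s (Icc_subset_Icc hab le_rfl hs)).sub ((hR'.2 s hs).const_mul (R b))).congr_deriv ?_
    noncomm_ring
  · rw [norm_neg, mul_comm (‖W s‖)]
    exact norm_mul_le _ _

/-- A backward map is invertible. -/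
theorem back_isUnit (hW : ContinuousOn W (Icc a b)) (hR : IsBack W R a b) :
    ∀ t ∈ Icc a b, IsUnit (R t) := by
  intro t ht
  obtain ⟨S, hS0, hS⟩ := exists_fwd hW
  exact (isUnit_iff_isUnit_det _).2
    (isUnit_det_of_right_inverse (back_mul_fwd hR hS0 hS t ht))

/-- The backward map of `W ≥ m` contracts by `exp (-∫ m)`. -/
theorem back_norm_le (hR : IsBack W R a b) (hW : ContinuousOn W (Icc a b)) {m : ℝ → ℝ}
    (hm : Continuous m)
    (h : ∀ t ∈ Icc a b, (W t - (m t : ℂ) • (1 : Op n)).PosSemidef) :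
    ∀ t ∈ Icc a b, ‖R t‖ ≤ Real.exp (-∫ u in a..t, m u) := by
  intro t ht
  set M := fun s => ∫ u in a..s, m u with hMdef
  have hM : ∀ s, HasDerivAt (fun s => Real.exp (2 * M s)) (Real.exp (2 * M s) * (2 * m s)) s :=
    fun s => ((hm.integral_hasStrictDerivAt a s).hasDerivAt.const_mul 2).exp
  have key : ((1 : Op n) - Real.exp (2 * M t) • (R t * star (R t))).PosSemidef := by
    refine posSemidef_of_deriv
      (f := fun s => (1 : Op n) - Real.exp (2 * M s) • (R s * star (R s)))
      (f' := fun s => (2 * Real.exp (2 * M s)) •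
        (R s * (W s - (m s : ℂ) • (1 : Op n)) * star (R s))) (fun s hs => ?_) (fun s hs => ?_)
      (by simp [hMdef, hR.1, Matrix.PosSemidef.zero]) t ht
    · refine (((hM s).smul ((hR.2 s hs).mul (hR.2 s hs).star)).const_sub (1 : Op n)).congr_deriv ?_
      have hWs : star (W s) = W s := by
        have h1 := (h s hs).1.eq
        rw [← star_eq_conjTranspose, star_sub, Complex.coe_smul, star_smul, star_trivial (m s),
          star_one] at h1
        exact sub_left_injective h1
      simp only [Pi.mul_apply, star_neg, star_mul, hWs, Complex.coe_smul, mul_sub, sub_mul,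
        mul_smul_comm, smul_mul_assoc, mul_one, mul_neg, neg_mul, mul_assoc, smul_sub, smul_smul]
      module
    · refine posSemidef_real_smul ?_ (by positivity)
      have := star_conj_posSemidef (h s hs) (star (R s))
      rwa [star_star] at this
  have h2 : ‖star (R t)‖ ^ 2 ≤ Real.exp (-(2 * M t)) := by
    refine norm_sq_le_of_posSemidef (Real.exp_pos _).le ?_
    have := posSemidef_real_smul key (Real.exp_pos (-(2 * M t))).le
    rw [smul_sub, smul_smul, ← Real.exp_add, neg_add_cancel, Real.exp_zero, one_smul] at this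
    rwa [star_star]
  rw [norm_star, show -(2 * M t) = -M t + -M t by ring, Real.exp_add, ← sq] at h2
  exact (pow_le_pow_iff_left₀ (norm_nonneg _) (Real.exp_pos _).le two_ne_zero).1 h2

/-- The inverse of the backward map of a nonnegative `W ≤ M` grows at most like `exp (∫ M)`. -/
theorem back_inv_norm_le (hR : IsBack W R a b) (hW : ContinuousOn W (Icc a b)) {M : ℝ → ℝ}
    (hM : Continuous M)
    (h : ∀ t ∈ Icc a b, ((M t : ℂ) • (1 : Op n) - W t).PosSemidef) :
    ∀ t ∈ Icc a b, ‖(R t)⁻¹‖ ≤ Real.exp (∫ u in a..t, M u) := by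
  intro t ht
  obtain ⟨S, hS0, hS⟩ := exists_fwd hW
  rw [Matrix.inv_eq_right_inv (back_mul_fwd hR hS0 hS t ht)]
  set N := fun s => ∫ u in a..s, M u with hNdef
  have hN : ∀ s, HasDerivAt (fun s => Real.exp (-(2 * N s)))
      (Real.exp (-(2 * N s)) * -(2 * M s)) s :=
    fun s => ((hM.integral_hasStrictDerivAt a s).hasDerivAt.const_mul 2).neg.exp
  have key : ((1 : Op n) - Real.exp (-(2 * N t)) • (star (S t) * S t)).PosSemidef := by
    refine posSemidef_of_deriv
      (f := fun s => (1 : Op n) - Real.exp (-(2 * N s)) • (star (S s) * S s))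
      (f' := fun s => (2 * Real.exp (-(2 * N s))) •
        (star (S s) * ((M s : ℂ) • (1 : Op n) - W s) * S s)) (fun s hs => ?_) (fun s hs => ?_)
      (by simp [hNdef, hS0, Matrix.PosSemidef.zero]) t ht
    · refine (((hN s).smul ((hS s hs).star.mul (hS s hs))).const_sub (1 : Op n)).congr_deriv ?_
      have hWs : star (W s) = W s := by
        have h1 := (h s hs).1.eq
        rw [← star_eq_conjTranspose, star_sub, Complex.coe_smul, star_smul, star_trivial (M s),
          star_one] at h1
        exact sub_right_injective h1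
      simp only [Pi.mul_apply, star_mul, hWs, Complex.coe_smul, mul_sub, sub_mul, mul_smul_comm,
        smul_mul_assoc, mul_one, mul_assoc, smul_sub, smul_smul]
      module
    · exact posSemidef_real_smul (star_conj_posSemidef (h s hs) _) (by positivity)
  have h2 : ‖S t‖ ^ 2 ≤ Real.exp (2 * N t) := by
    refine norm_sq_le_of_posSemidef (Real.exp_pos _).le ?_
    have := posSemidef_real_smul key (Real.exp_pos (2 * N t)).le
    rwa [smul_sub, smul_smul, ← Real.exp_add, add_neg_cancel, Real.exp_zero, one_smul] at this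
  rw [show 2 * N t = N t + N t by ring, Real.exp_add, ← sq] at h2
  exact (pow_le_pow_iff_left₀ (norm_nonneg _) (Real.exp_pos _).le two_ne_zero).1 h2

/-- Anything commuting with the coefficient and the initial value commutes with the solution. -/
theorem riccati_commute (hν : ContinuousOn ν (Icc a b)) (hW : IsRiccati A ν W a b) {M : Op n}
    (hA : ∀ t ∈ Icc a b, Commute M (A t)) (h0 : Commute M (W a)) :
    ∀ t ∈ Icc a b, Commute M (W t) := by
  intro t ht
  refine sub_eq_zero.1 (eq_zero_of_deriv_le (f := fun s => M * W s - W s * M)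
    (f' := fun s => -((M * W s - W s * M) * W s + W s * (M * W s - W s * M)) -
      ν s • (M * W s - W s * M))
    (K := fun s => ‖W s‖ + ‖W s‖ + ‖ν s‖) (fun s hs => ?_) ?_ (fun s _ => ?_)
    (sub_eq_zero.2 h0.eq) t ht)
  · refine (((hW s hs).const_mul M).sub ((hW s hs).mul_const M)).congr_deriv ?_
    simp only [mul_sub, sub_mul, mul_smul_comm, smul_mul_assoc, (hA s hs).eq, mul_assoc]
    module
  · exact ((ContinuousOn.norm (fun s hs => (hW s hs).continuousAt.continuousWithinAt)).add
      (ContinuousOn.norm (fun s hs => (hW s hs).continuousAt.continuousWithinAt))).add hν.norm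
  · set Z := M * W s - W s * M
    calc ‖-(Z * W s + W s * Z) - ν s • Z‖ ≤ ‖-(Z * W s + W s * Z)‖ + ‖ν s • Z‖ := norm_sub_le _ _
      _ ≤ ‖Z‖ * ‖W s‖ + ‖W s‖ * ‖Z‖ + ‖ν s‖ * ‖Z‖ := by
          rw [norm_neg, norm_smul]
          gcongr
          exact (norm_add_le _ _).trans (add_le_add (norm_mul_le _ _) (norm_mul_le _ _))
      _ = (‖W s‖ + ‖W s‖ + ‖ν s‖) * ‖Z‖ := by ring

/-- A real algebra endomorphism (for instance the real structure) fixing the coefficient and the
initial value fixes the solution. -/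
theorem riccati_map_eq (φ : Op n →ₐ[ℝ] Op n) (hν : ContinuousOn ν (Icc a b))
    (hW : IsRiccati A ν W a b) (hA : ∀ t ∈ Icc a b, φ (A t) = A t) (h0 : φ (W a) = W a) :
    ∀ t ∈ Icc a b, φ (W t) = W t := by
  have hV : IsRiccati A ν (fun t => φ (W t)) a b := fun t ht => by
    have h1 : HasDerivAt (fun t => φ (W t)) (φ (A t - W t * W t - ν t • W t)) t :=
      (LinearMap.toContinuousLinearMap φ.toLinearMap).hasFDerivAt.comp_hasDerivAt t (hW t ht)
    refine h1.congr_deriv ?_
    rw [map_sub, map_sub, map_smul, map_mul, hA t ht]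
  exact fun t ht => riccati_unique hν hV hW h0 ht

/-- The same for a backward map. -/
theorem back_map_eq (φ : Op n →ₐ[ℝ] Op n) (hW : ContinuousOn W (Icc a b)) (hR : IsBack W R a b)
    (h : ∀ t ∈ Icc a b, φ (W t) = W t) : ∀ t ∈ Icc a b, φ (R t) = R t := by
  intro t ht
  refine sub_eq_zero.1 (eq_zero_of_deriv_le (f := fun s => φ (R s) - R s)
    (f' := fun s => -((φ (R s) - R s) * W s)) (K := fun s => ‖W s‖) (fun s hs => ?_) hW.norm
    (fun s _ => ?_) (by simp [hR.1]) t ht)
  · refine (((LinearMap.toContinuousLinearMap φ.toLinearMap).hasFDerivAt.comp_hasDerivAt s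
      (hR.2 s hs)).sub (hR.2 s hs)).congr_deriv ?_
    simp only [LinearMap.coe_toContinuousLinearMap', AlgHom.toLinearMap_apply, map_neg, map_mul,
      h s hs]
    noncomm_ring
  · rw [norm_neg, mul_comm (‖W s‖)]
    exact norm_mul_le _ _

end Vale.Agent.P225
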