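import Vale.Agent.P225.Riccati.Basic
import Vale.Agent.P225.Riccati.Linear

/-!
P225, module E (helper file): congruence with the propagator of a nonnegative coefficient, and a
Gronwall bound with a continuous rate.
-/

noncomputable section

namespace Vale.Agent.P225.Congr

open Set
open scoped ComplexOrder Matrix.Norms.L2Operator MatrixOrder

variable {n : Type*} [Fintype n] [DecidableEq n]

/-- `X' = C X` on `[a, b]` with `X b = 1`. -/
theorem exists_back_propagator {C : ℝ → Op n} {a b : ℝ} (hab : a ≤ b)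
    (hC : ContinuousOn C (Icc a b)) :
    ∃ X : ℝ → Op n, X b = 1 ∧ ∀ s ∈ Icc a b, HasDerivAt X (C s * X s) s := by
  have hc : Continuous (IccExtend hab ((Icc a b).domRestrict C)) :=
    (continuousOn_iff_continuous_domRestrict.1 hC).Icc_extend'
  obtain ⟨X, hX, hX'⟩ := exists_linear_ode
    (fun s => ContinuousLinearMap.mul ℝ (Op n) (IccExtend hab ((Icc a b).domRestrict C) s))
    ((ContinuousLinearMap.mul ℝ (Op n)).continuous.comp hc) b 1
  refine ⟨X, hX, fun s hs => ?_⟩
  have h := hX' s
  rwa [ContinuousLinearMap.mul_apply', IccExtend_of_mem hab _ hs] at h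

/-- A path of Hermitian matrices with nonnegative derivative increases. -/
theorem posSemidef_sub_of_deriv {F F' : ℝ → Op n} {a b : ℝ} (hab : a ≤ b)
    (hF : ∀ s ∈ Icc a b, HasDerivAt F (F' s) s) (hh : ∀ s ∈ Icc a b, (F s).IsHermitian)
    (h' : ∀ s ∈ Icc a b, (F' s).PosSemidef) : (F b - F a).PosSemidef := by
  have hH := (hh b (right_mem_Icc.2 hab)).sub (hh a (left_mem_Icc.2 hab))
  refine Matrix.PosSemidef.of_dotProduct_mulVec_nonneg hH fun v => ?_
  let q : Op n →ₗ[ℝ] ℝ :=
    { toFun := fun M => (star v ⬝ᵥ M.mulVec v).re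
      map_add' := fun M N => by simp [Matrix.add_mulVec, dotProduct_add]
      map_smul' := fun r M => by simp [Matrix.smul_mulVec, dotProduct_smul] }
  have hq : ∀ s ∈ Icc a b, HasDerivAt (fun u => q (F u)) (q (F' s)) s := fun s hs =>
    (LinearMap.toContinuousLinearMap q).hasFDerivAt.comp_hasDerivAt s (hF s hs)
  have hmono : MonotoneOn (fun u => q (F u)) (Icc a b) := by
    refine monotoneOn_of_hasDerivWithinAt_nonneg (convex_Icc a b)
      (fun s hs => (hq s hs).continuousAt.continuousWithinAt)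
      (fun s hs => (hq s (interior_subset hs)).hasDerivWithinAt) fun s hs => ?_
    exact (Complex.nonneg_iff.1 ((h' s (interior_subset hs)).dotProduct_mulVec_nonneg v)).1
  have h := sub_nonneg.2 (hmono (left_mem_Icc.2 hab) (right_mem_Icc.2 hab) hab)
  rw [← map_sub q] at h
  exact Complex.nonneg_iff.2 ⟨h, (hH.im_star_dotProduct_mulVec_self v).symm⟩

/-- Congruence by the back propagator. -/
theorem hasDerivAt_congr {C R X : ℝ → Op n} {S : Op n} {s : ℝ}
    (hC : (C s).IsHermitian) (hX : HasDerivAt X (C s * X s) s)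
    (hR : HasDerivAt R (-(C s * R s + R s * C s) + S) s) :
    HasDerivAt (fun u => star (X u) * R u * X u) (star (X s) * S * X s) s := by
  refine ((hX.star.mul hR).mul hX).congr_deriv ?_
  simp only [Pi.mul_apply, star_mul, show star (C s) = C s from hC, mul_add, add_mul, mul_neg,
    neg_mul, mul_assoc]
  abel

/-- `D' = -(C D + D C) + S` with `S ≥ 0` preserves nonnegativity. -/
theorem lyap_nonneg {C D S : ℝ → Op n} {a b : ℝ} (hab : a ≤ b)
    (hC : ContinuousOn C (Icc a b)) (hCh : ∀ s ∈ Icc a b, (C s).IsHermitian)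
    (hDh : ∀ s ∈ Icc a b, (D s).IsHermitian)
    (hS : ∀ s ∈ Icc a b, (S s).PosSemidef)
    (hD : ∀ s ∈ Icc a b, HasDerivAt D (-(C s * D s + D s * C s) + S s) s)
    (h0 : (D a).PosSemidef) : (D b).PosSemidef := by
  obtain ⟨X, hX, hX'⟩ := exists_back_propagator hab hC
  have h := posSemidef_sub_of_deriv (F := fun u => star (X u) * D u * X u) hab
    (fun s hs => hasDerivAt_congr (hCh s hs) (hX' s hs) (hD s hs))
    (fun s hs => Matrix.isHermitian_conjTranspose_mul_mul _ (hDh s hs))
    (fun s hs => (hS s hs).conjTranspose_mul_mul_same _)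
  have h2 := h.add (h0.conjTranspose_mul_mul_same (X a))
  simpa [hX, Matrix.star_eq_conjTranspose] using h2

/-- The back propagator of a nonnegative coefficient is a contraction. -/
theorem back_propagator_norm_le {C X : ℝ → Op n} {a b : ℝ}
    (hC : ∀ s ∈ Icc a b, (C s).PosSemidef) (hX : X b = 1)
    (hX' : ∀ s ∈ Icc a b, HasDerivAt X (C s * X s) s) : ∀ s ∈ Icc a b, ‖X s‖ ≤ 1 := by
  intro s hs
  have h := posSemidef_sub_of_deriv (F := fun u => star (X u) * X u)
    (F' := fun u => star (X u) * (C u + C u) * X u) hs.2 (fun u hu => ?_)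
    (fun u _ => Matrix.isHermitian_conjTranspose_mul_self _)
    (fun u hu => ((hC u ⟨hs.1.trans hu.1, hu.2⟩).add
      (hC u ⟨hs.1.trans hu.1, hu.2⟩)).conjTranspose_mul_mul_same _)
  · rcases subsingleton_or_nontrivial (Op n) with hn | hn
    · rw [Subsingleton.elim (X s) 0, norm_zero]; exact zero_le_one
    have h1 : star (X s) * X s ≤ 1 := Matrix.le_iff.2 (by simpa [hX] using h)
    have h2 : ‖star (X s) * X s‖ ≤ 1 := by
      have := CStarAlgebra.norm_le_norm_of_nonneg_of_le (star_mul_self_nonneg (X s)) h1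
      rwa [norm_one] at this
    rw [CStarRing.norm_star_mul_self] at h2
    nlinarith [norm_nonneg (X s)]
  · have hu' : u ∈ Icc a b := ⟨hs.1.trans hu.1, hu.2⟩
    refine ((hX' u hu').star.mul (hX' u hu')).congr_deriv ?_
    simp only [star_mul, show star (C u) = C u from (hC u hu').1, mul_add, add_mul, mul_assoc]

omit [Fintype n] [DecidableEq n] in
theorem isHermitian_smul (r : ℝ) {M : Op n} (h : M.IsHermitian) : (r • M).IsHermitian := by
  rw [Matrix.IsHermitian, Matrix.conjTranspose_smul, h.eq, star_trivial]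

/-- Gronwall with a continuous rate `k ≥ 0` and forcing `g ≥ 0`. -/
theorem norm_le_gronwall {E : Type*} [NormedAddCommGroup E] [NormedSpace ℝ E]
    {f f' : ℝ → E} {k g : ℝ → ℝ} {a b : ℝ} (hab : a ≤ b)
    (hf : ∀ t ∈ Icc a b, HasDerivAt f (f' t) t) (hk : ContinuousOn k (Icc a b))
    (hg : ContinuousOn g (Icc a b)) (hk0 : ∀ t ∈ Icc a b, 0 ≤ k t)
    (hg0 : ∀ t ∈ Icc a b, 0 ≤ g t)
    (hle : ∀ t ∈ Icc a b, ‖f' t‖ ≤ k t * ‖f t‖ + g t) :
    ‖f b‖ ≤ Real.exp (∫ u in a..b, k u) * (‖f a‖ + ∫ u in a..b, g u) := by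
  set k' := IccExtend hab ((Icc a b).domRestrict k)
  set g' := IccExtend hab ((Icc a b).domRestrict g)
  have hkc : Continuous k' := (continuousOn_iff_continuous_domRestrict.1 hk).Icc_extend'
  have hgc : Continuous g' := (continuousOn_iff_continuous_domRestrict.1 hg).Icc_extend'
  have ek : ∀ u ∈ Icc a b, k' u = k u := fun u hu => IccExtend_of_mem hab _ hu
  have eg : ∀ u ∈ Icc a b, g' u = g u := fun u hu => IccExtend_of_mem hab _ hu
  rw [intervalIntegral.integral_congr (g := k') (fun u hu => (ek u (uIcc_of_le hab ▸ hu)).symm),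
    intervalIntegral.integral_congr (g := g') (fun u hu => (eg u (uIcc_of_le hab ▸ hu)).symm)]
  refine le_of_forall_pos_le_add fun η hη => ?_
  set Ib := Real.exp (∫ u in a..b, k' u)
  have hIb : 0 < Ib := Real.exp_pos _
  have hden : 0 < Ib * (b - a + 1) := by nlinarith
  set ε := η / (Ib * (b - a + 1))
  have hε : 0 < ε := div_pos hη hden
  set B : ℝ → ℝ := fun s => Real.exp (∫ u in a..s, k' u) *
    (‖f a‖ + (∫ u in a..s, g' u) + ε * (s - a + 1))
  set B' : ℝ → ℝ := fun s => k' s * B s + Real.exp (∫ u in a..s, k' u) * (g' s + ε)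
  have hB : ∀ s, HasDerivAt B (B' s) s := fun s => by
    refine ((hkc.integral_hasStrictDerivAt a s).hasDerivAt.exp.mul
      (((hgc.integral_hasStrictDerivAt a s).hasDerivAt.const_add ‖f a‖).add
        ((((hasDerivAt_id s).sub_const a).add_const 1).const_mul ε))).congr_deriv ?_
    simp only [B', B, mul_one, Pi.add_apply, id_eq]
    ring
  have h := image_norm_le_of_norm_deriv_right_lt_deriv_boundary
    (fun t ht => (hf t ht).continuousAt.continuousWithinAt)
    (fun t ht => (hf t (Ico_subset_Icc_self ht)).hasDerivWithinAt)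
    (B := B) (B' := B') (a := a) (b := b) (by simp [B]; linarith) hB
    (fun x hx hxe => ?_) (right_mem_Icc.2 hab)
  · refine h.trans (le_of_eq ?_)
    have he : ε * (Ib * (b - a + 1)) = η := div_mul_cancel₀ _ hden.ne'
    simp only [B]
    linear_combination he
  · have hx' := Ico_subset_Icc_self hx
    have hk1 : 0 ≤ ∫ u in a..x, k' u := intervalIntegral.integral_nonneg hx'.1
      fun u hu => by
        have hu' : u ∈ Icc a b := ⟨hu.1, hu.2.trans hx'.2⟩
        rw [ek u hu']; exact hk0 u hu'
    have hE := Real.one_le_exp hk1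
    have h1 := hle x hx'
    rw [← ek x hx', ← eg x hx', hxe] at h1
    have h2 : 0 ≤ g' x := by rw [eg x hx']; exact hg0 x hx'
    simp only [B']
    nlinarith

end Vale.Agent.P225.Congr
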