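import Vale.Agent.P225.Riccati.Solve
import Vale.Agent.P225.Riccati.Congr

/-!
P225, module E: comparison of nonnegative Riccati solutions with sub- and supersolutions.
-/

noncomputable section

namespace Vale.Agent.P225

open Set
open scoped ComplexOrder Matrix.Norms.L2Operator

variable {n : Type*} [Fintype n] [DecidableEq n] {A W V V' : ℝ → Op n} {ν : ℝ → ℝ} {a b : ℝ}

/-- A subsolution stays below. -/
theorem riccati_ge (hν : ContinuousOn ν (Icc a b)) (hW : IsRiccati A ν W a b)
    (hWh : ∀ t ∈ Icc a b, (W t).IsHermitian) (hVh : ∀ t ∈ Icc a b, (V t).IsHermitian)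
    (hV : ∀ t ∈ Icc a b, HasDerivAt V (V' t) t)
    (hsub : ∀ t ∈ Icc a b, (A t - (V' t + V t * V t + ν t • V t)).PosSemidef)
    (h0 : (W a - V a).PosSemidef) : ∀ t ∈ Icc a b, (W t - V t).PosSemidef := by
  intro t ht
  have hsub' : Icc a t ⊆ Icc a b := Icc_subset_Icc_right ht.2
  refine Congr.lyap_nonneg (C := fun s => (1/2 : ℝ) • (W s + V s + ν s • (1 : Op n)))
    (D := fun s => W s - V s) (S := fun s => A s - (V' s + V s * V s + ν s • V s)) ht.1
    ?_ (fun s hs => ?_) (fun s hs => (hWh s (hsub' hs)).sub (hVh s (hsub' hs)))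
    (fun s hs => hsub s (hsub' hs)) (fun s hs => ?_) h0
  · have hWc : ContinuousOn W (Icc a b) := fun s hs => (hW s hs).continuousAt.continuousWithinAt
    have hVc : ContinuousOn V (Icc a b) := fun s hs => (hV s hs).continuousAt.continuousWithinAt
    exact ((((hWc.add hVc).add (hν.smul continuousOn_const)).const_smul (1/2 : ℝ))).mono hsub'
  · exact Congr.isHermitian_smul _ (((hWh s (hsub' hs)).add (hVh s (hsub' hs))).add
      (Congr.isHermitian_smul _ Matrix.isHermitian_one))
  · refine ((hW s (hsub' hs)).sub (hV s (hsub' hs))).congr_deriv ?_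
    simp only [smul_add, add_mul, mul_add, mul_sub, sub_mul, smul_mul_assoc, mul_smul_comm,
      one_mul, mul_one, smul_sub]
    module

/-- A supersolution stays above. -/
theorem riccati_le (hν : ContinuousOn ν (Icc a b)) (hW : IsRiccati A ν W a b)
    (hWh : ∀ t ∈ Icc a b, (W t).IsHermitian) (hVh : ∀ t ∈ Icc a b, (V t).IsHermitian)
    (hV : ∀ t ∈ Icc a b, HasDerivAt V (V' t) t)
    (hsup : ∀ t ∈ Icc a b, (V' t + V t * V t + ν t • V t - A t).PosSemidef)
    (h0 : (V a - W a).PosSemidef) : ∀ t ∈ Icc a b, (V t - W t).PosSemidef := by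
  intro t ht
  have hsub' : Icc a t ⊆ Icc a b := Icc_subset_Icc_right ht.2
  refine Congr.lyap_nonneg (C := fun s => (1/2 : ℝ) • (W s + V s + ν s • (1 : Op n)))
    (D := fun s => V s - W s) (S := fun s => V' s + V s * V s + ν s • V s - A s) ht.1
    ?_ (fun s hs => ?_) (fun s hs => (hVh s (hsub' hs)).sub (hWh s (hsub' hs)))
    (fun s hs => hsup s (hsub' hs)) (fun s hs => ?_) h0
  · have hWc : ContinuousOn W (Icc a b) := fun s hs => (hW s hs).continuousAt.continuousWithinAt
    have hVc : ContinuousOn V (Icc a b) := fun s hs => (hV s hs).continuousAt.continuousWithinAt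
    exact ((((hWc.add hVc).add (hν.smul continuousOn_const)).const_smul (1/2 : ℝ))).mono hsub'
  · exact Congr.isHermitian_smul _ (((hWh s (hsub' hs)).add (hVh s (hsub' hs))).add
      (Congr.isHermitian_smul _ Matrix.isHermitian_one))
  · refine ((hV s (hsub' hs)).sub (hW s (hsub' hs))).congr_deriv ?_
    simp only [smul_add, add_mul, mul_add, mul_sub, sub_mul, smul_mul_assoc, mul_smul_comm,
      one_mul, mul_one, smul_sub]
    module

set_option linter.unusedVariables false in
/-- The constant root `α` of `α² + ν₀ α = m` is a lower barrier where `A ≥ m`, `ν ≤ ν₀`. -/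
theorem riccati_ge_const (hν : ContinuousOn ν (Icc a b)) (hW : IsRiccati A ν W a b)
    (hWh : ∀ t ∈ Icc a b, (W t).IsHermitian) {m α : ℝ} (hα : 0 ≤ α)
    (hm : ∀ t ∈ Icc a b, α ^ 2 + ν t * α ≤ m)
    (hA : ∀ t ∈ Icc a b, (A t - (m : ℂ) • (1 : Op n)).PosSemidef)
    (h0 : (W a - (α : ℂ) • (1 : Op n)).PosSemidef) :
    ∀ t ∈ Icc a b, (W t - (α : ℂ) • (1 : Op n)).PosSemidef := by
  refine riccati_ge (V' := fun _ => 0) hν hW hWh (fun _ _ => ?_) (fun t _ => hasDerivAt_const t _)
    (fun t ht => ?_) h0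
  · simp [Matrix.IsHermitian, Matrix.conjTranspose_smul]
  · have h := (hA t ht).add ((Matrix.PosSemidef.one (n := n) (R := ℂ)).smul
      (show (0 : ℂ) ≤ ((m - α ^ 2 - ν t * α : ℝ) : ℂ) by
        exact Complex.zero_le_real.2 (by linarith [hm t ht])))
    convert h using 1
    simp only [Complex.coe_smul, smul_mul_assoc, mul_smul_comm, one_mul]
    module

set_option linter.unusedVariables false in
/-- The upper barrier. -/
theorem riccati_le_const (hν : ContinuousOn ν (Icc a b)) (hW : IsRiccati A ν W a b)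
    (hWh : ∀ t ∈ Icc a b, (W t).IsHermitian) {M α : ℝ} (hα : 0 ≤ α)
    (hM : ∀ t ∈ Icc a b, M ≤ α ^ 2 + ν t * α)
    (hA : ∀ t ∈ Icc a b, ((M : ℂ) • (1 : Op n) - A t).PosSemidef)
    (h0 : ((α : ℂ) • (1 : Op n) - W a).PosSemidef) :
    ∀ t ∈ Icc a b, ((α : ℂ) • (1 : Op n) - W t).PosSemidef := by
  refine riccati_le (V' := fun _ => 0) hν hW hWh (fun _ _ => ?_) (fun t _ => hasDerivAt_const t _)
    (fun t ht => ?_) h0
  · simp [Matrix.IsHermitian, Matrix.conjTranspose_smul]
  · have h := (hA t ht).add ((Matrix.PosSemidef.one (n := n) (R := ℂ)).smul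
      (show (0 : ℂ) ≤ ((α ^ 2 + ν t * α - M : ℝ) : ℂ) by
        exact Complex.zero_le_real.2 (by linarith [hM t ht])))
    convert h using 1
    simp only [Complex.coe_smul, smul_mul_assoc, mul_smul_comm, one_mul]
    module

end Vale.Agent.P225
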