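import Vale.Agent.P225.Riccati.Congr

/-!
P225, module E: perturbation of propagators and of a damped equation (used for the stage limit).
-/

noncomputable section

namespace Vale.Agent.P225

open Set NormedSpace
open scoped ComplexOrder Matrix.Norms.L2Operator

variable {𝔸 : Type*} [NormedRing 𝔸] [NormedAlgebra ℝ 𝔸] [NormOneClass 𝔸] [CompleteSpace 𝔸]

omit [CompleteSpace 𝔸] in
/-- Two solutions of `Y' = -(Y K)` from `1`. -/
theorem propagator_sub_le {Y Z K L : ℝ → 𝔸} {a b : ℝ} (hab : a ≤ b)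
    (hK : ContinuousOn K (Icc a b)) (hL : ContinuousOn L (Icc a b))
    (hY : ∀ t ∈ Icc a b, HasDerivAt Y (-(Y t * K t)) t)
    (hZ : ∀ t ∈ Icc a b, HasDerivAt Z (-(Z t * L t)) t) (hY0 : Y a = 1) (hZ0 : Z a = 1) :
    ‖Y b - Z b‖ ≤ Real.exp ((∫ u in a..b, ‖K u‖) + ∫ u in a..b, ‖L u‖) *
      ∫ u in a..b, ‖K u - L u‖ := by
  have hZn : ∀ t ∈ Icc a b, ‖Z t‖ ≤ Real.exp (∫ u in a..b, ‖L u‖) := by
    intro t ht
    have hs : Icc a t ⊆ Icc a b := Icc_subset_Icc_right ht.2
    have h := Congr.norm_le_gronwall (k := fun u => ‖L u‖) (g := fun _ => 0) ht.1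
      (fun u hu => hZ u (hs hu)) (hL.mono hs).norm continuousOn_const (fun u _ => norm_nonneg _)
      (fun _ _ => le_rfl) (fun u _ => by
        rw [norm_neg, add_zero, mul_comm ‖L u‖]; exact norm_mul_le _ _)
    rw [hZ0, norm_one, intervalIntegral.integral_zero, add_zero, mul_one] at h
    refine h.trans (Real.exp_le_exp.2 ?_)
    have hsplit := intervalIntegral.integral_add_adjacent_intervals (a := a) (b := t) (c := b)
      (f := fun u => ‖L u‖) (μ := MeasureTheory.volume) ((hL.mono hs).norm.intervalIntegrable_of_Icc ht.1)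
      ((hL.mono (Icc_subset_Icc_left ht.1)).norm.intervalIntegrable_of_Icc ht.2)
    have : 0 ≤ ∫ u in t..b, ‖L u‖ :=
      intervalIntegral.integral_nonneg ht.2 fun u _ => norm_nonneg _
    linarith
  have h := Congr.norm_le_gronwall (f := fun u => Y u - Z u) (k := fun u => ‖K u‖)
    (g := fun u => Real.exp (∫ v in a..b, ‖L v‖) * ‖K u - L u‖) hab
    (fun u hu => (hY u hu).sub (hZ u hu)) hK.norm (continuousOn_const.mul (hK.sub hL).norm)
    (fun u _ => norm_nonneg _) (fun u _ => by positivity) (fun u hu => ?_)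
  · rw [hY0, hZ0, sub_self, norm_zero, zero_add, intervalIntegral.integral_const_mul,
      ← mul_assoc, ← Real.exp_add] at h
    exact h
  · rw [show -(Y u * K u) - -(Z u * L u) = -((Y u - Z u) * K u) + -(Z u * (K u - L u)) by
      noncomm_ring]
    refine (norm_add_le _ _).trans ?_
    rw [norm_neg, norm_neg, mul_comm ‖K u‖]
    exact add_le_add (norm_mul_le _ _)
      ((norm_mul_le _ _).trans (mul_le_mul_of_nonneg_right (hZn u hu) (norm_nonneg _)))

/-- With a single generator the propagator is an exponential. -/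
theorem propagator_smul {Y : ℝ → 𝔸} {B : 𝔸} {φ Φ : ℝ → ℝ} {a b : ℝ} (hab : a ≤ b)
    (hφ : ContinuousOn φ (Icc a b)) (hΦ : ∀ t ∈ Icc a b, HasDerivAt Φ (φ t) t)
    (hY : ∀ t ∈ Icc a b, HasDerivAt Y (-(Y t * (φ t • B))) t) (hY0 : Y a = 1) :
    Y b = exp (-(Φ b - Φ a) • B) := by
  set Z : ℝ → 𝔸 := fun t => exp (-(Φ t - Φ a) • B)
  have hZ : ∀ t ∈ Icc a b, HasDerivAt Z (-(Z t * (φ t • B))) t := fun t ht => by
    refine ((hasDerivAt_exp_smul_const (𝕂 := ℝ) B (-(Φ t - Φ a))).scomp t
      (((hΦ t ht).sub_const (Φ a)).neg)).congr_deriv ?_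
    simp only [Z, mul_smul_comm, neg_smul]
  have hc : ContinuousOn (fun t => φ t • B) (Icc a b) := hφ.smul continuousOn_const
  have h := propagator_sub_le hab hc hc hY hZ hY0 (by simp [Z])
  simp only [sub_self, norm_zero, intervalIntegral.integral_zero, mul_zero] at h
  simpa [Z, sub_eq_zero] using h

/-- The linearised Riccati equation forgets its initial value at rate `c` and keeps forcing of size
`δ` to size `δ / c`; no regularity of the forcing is needed. -/
theorem damped_bound {n : Type*} [Fintype n] [DecidableEq n] {C R g : ℝ → Op n} {ν : ℝ → ℝ}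
    {a b c δ : ℝ} (hab : a ≤ b) (hc : 0 < c) (hν : ∀ t ∈ Icc a b, c ≤ ν t)
    (hνc : ContinuousOn ν (Icc a b)) (hCc : ContinuousOn C (Icc a b))
    (hC : ∀ t ∈ Icc a b, (C t).PosSemidef) (hgb : ∀ t ∈ Icc a b, ‖g t‖ ≤ δ)
    (hR : ∀ t ∈ Icc a b, HasDerivAt R (-(C t * R t + R t * C t) - ν t • R t + g t) t) :
    ‖R b‖ ≤ Real.exp (-c * (b - a)) * ‖R a‖ + δ / c := by
  obtain ⟨X, hXb, hX⟩ := Congr.exists_back_propagator hab hCc
  have hXn := Congr.back_propagator_norm_le hC hXb hX
  set ν' := IccExtend hab ((Icc a b).domRestrict ν)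
  have hνc' : Continuous ν' := (continuousOn_iff_continuous_domRestrict.1 hνc).Icc_extend'
  have eν : ∀ u ∈ Icc a b, ν' u = ν u := fun u hu => IccExtend_of_mem hab _ hu
  set e : ℝ → ℝ := fun s => Real.exp (∫ u in b..s, ν' u)
  have he : ∀ s, HasDerivAt e (e s * ν' s) s := fun s =>
    (hνc'.integral_hasStrictDerivAt b s).hasDerivAt.exp
  have hee : ∀ s ∈ Icc a b, e s ≤ Real.exp (-c * (b - s)) := fun s hs => by
    refine Real.exp_le_exp.2 ?_
    rw [intervalIntegral.integral_symm]
    have h1 : ∫ _u in s..b, c ≤ ∫ u in s..b, ν' u :=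
      intervalIntegral.integral_mono_on hs.2 intervalIntegrable_const
        (hνc'.intervalIntegrable _ _) fun u hu => by
          have hu' : u ∈ Icc a b := ⟨hs.1.trans hu.1, hu.2⟩
          rw [eν u hu']; exact hν u hu'
    rw [intervalIntegral.integral_const, smul_eq_mul] at h1
    linarith
  have hδ : 0 ≤ δ := (norm_nonneg _).trans (hgb a (left_mem_Icc.2 hab))
  set f : ℝ → Op n := fun s => e s • (star (X s) * R s * X s)
  have hf : ∀ s ∈ Icc a b, HasDerivAt f (e s • (star (X s) * g s * X s)) s := fun s hs => by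
    refine ((he s).smul (Congr.hasDerivAt_congr (S := -(ν s • R s) + g s) (hC s hs).1 (hX s hs)
      ((hR s hs).congr_deriv (by abel)))).congr_deriv ?_
    simp only [eν s hs, mul_add, add_mul, mul_neg, neg_mul, mul_smul_comm, smul_mul_assoc]
    module
  have hB : ∀ s, HasDerivAt
      (fun s => e a * ‖R a‖ + δ / c * (Real.exp (-c * (b - s)) - Real.exp (-c * (b - a))))
      (δ * Real.exp (-c * (b - s))) s := fun s => by
    refine (((((hasDerivAt_id s).const_sub b).const_mul (-c)).exp.sub_const _).const_mul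
      (δ / c)).const_add _ |>.congr_deriv ?_
    field_simp
    simp
  have h := image_norm_le_of_norm_deriv_right_le_deriv_boundary (f := f)
    (fun t ht => (hf t ht).continuousAt.continuousWithinAt)
    (fun t ht => (hf t (Ico_subset_Icc_self ht)).hasDerivWithinAt) ?_ hB (fun x hx => ?_)
    (right_mem_Icc.2 hab)
  · have hb : f b = R b := by simp [f, e, hXb]
    have h1 : e a * ‖R a‖ ≤ Real.exp (-c * (b - a)) * ‖R a‖ :=
      mul_le_mul_of_nonneg_right (hee a (left_mem_Icc.2 hab)) (norm_nonneg _)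
    have h2 : 0 ≤ δ / c * Real.exp (-c * (b - a)) := by positivity
    rw [hb, sub_self, mul_zero, Real.exp_zero] at h
    nlinarith
  · have ha := left_mem_Icc.2 hab
    simp only [f, sub_self, mul_zero, add_zero, norm_smul, Real.norm_eq_abs, e, Real.abs_exp]
    refine mul_le_mul_of_nonneg_left ?_ (Real.exp_nonneg _)
    calc ‖star (X a) * R a * X a‖ ≤ ‖star (X a)‖ * ‖R a‖ * ‖X a‖ :=
          (norm_mul_le _ _).trans (mul_le_mul_of_nonneg_right (norm_mul_le _ _) (norm_nonneg _))
      _ ≤ 1 * ‖R a‖ * 1 := by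
          rw [norm_star]; gcongr <;> exact hXn a ha
      _ = ‖R a‖ := by ring
  · have hx' := Ico_subset_Icc_self hx
    rw [norm_smul, Real.norm_eq_abs, abs_of_nonneg (Real.exp_nonneg _)]
    calc e x * ‖star (X x) * g x * X x‖ ≤ e x * (‖star (X x)‖ * ‖g x‖ * ‖X x‖) :=
          mul_le_mul_of_nonneg_left ((norm_mul_le _ _).trans
            (mul_le_mul_of_nonneg_right (norm_mul_le _ _) (norm_nonneg _))) (Real.exp_nonneg _)
      _ ≤ Real.exp (-c * (b - x)) * (1 * δ * 1) := by
          rw [norm_star]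
          refine mul_le_mul (hee x hx') ?_ (by positivity) (Real.exp_nonneg _)
          gcongr
          · exact hXn x hx'
          · exact hgb x hx'
          · exact hXn x hx'
      _ = _ := by ring

set_option linter.unusedVariables false in
/-- The linearised Riccati equation forgets its initial value at rate `c` and keeps forcing of size
`δ` to size `δ / c`. -/
theorem damped_le {n : Type*} [Fintype n] [DecidableEq n] {C R g : ℝ → Op n} {ν : ℝ → ℝ}
    {a b c δ : ℝ} (hab : a ≤ b) (hc : 0 < c) (hν : ∀ t ∈ Icc a b, c ≤ ν t)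
    (hνc : ContinuousOn ν (Icc a b)) (hCc : ContinuousOn C (Icc a b))
    (hC : ∀ t ∈ Icc a b, (C t).PosSemidef) (hg : ContinuousOn g (Icc a b))
    (hgb : ∀ t ∈ Icc a b, ‖g t‖ ≤ δ)
    (hR : ∀ t ∈ Icc a b, HasDerivAt R (-(C t * R t + R t * C t) - ν t • R t + g t) t) :
    ‖R b‖ ≤ Real.exp (-c * (b - a)) * ‖R a‖ + δ / c :=
  damped_bound hab hc hν hνc hCc hC hgb hR

end Vale.Agent.P225
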