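import Vale.Agent.P225.Riccati.Solve
import Vale.Agent.P225.Riccati.Congr

/-!
P225, module E: continuous dependence of nonnegative solutions and backward maps on a parameter.
-/

noncomputable section

namespace Vale.Agent.P225

open Set Filter Topology
open scoped ComplexOrder Matrix.Norms.L2Operator

variable {n : Type*} [Fintype n] [DecidableEq n] {X : Type*} [TopologicalSpace X]

omit [Fintype n] [DecidableEq n] in
/-- Continuity on the product with a compact set is locally uniform in the parameter. -/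
theorem eventually_dist_le {E : Type*} [NormedAddCommGroup E] {F : X → ℝ → E} {I : Set ℝ}
    (hI : IsCompact I) (hF : ContinuousOn (fun q : X × ℝ => F q.1 q.2) (univ ×ˢ I)) (x₀ : X)
    {ε : ℝ} (hε : 0 < ε) : ∀ᶠ x in 𝓝 x₀, ∀ t ∈ I, ‖F x t - F x₀ t‖ ≤ ε := by
  suffices h : ∀ᶠ x in 𝓝 x₀, ∀ t ∈ I, t ∈ I → ‖F x t - F x₀ t‖ ≤ ε from
    h.mono fun x hx t ht => hx t ht ht
  refine hI.eventually_forall_of_forall_eventually fun t ht => ?_
  have h1 := eventually_nhdsWithin_iff.1
    ((hF (x₀, t) ⟨trivial, ht⟩).eventually (Metric.ball_mem_nhds _ (half_pos hε)))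
  have h3 : Tendsto (fun q : X × ℝ => (x₀, q.2)) (𝓝 (x₀, t)) (𝓝 (x₀, t)) :=
    (continuous_const.prodMk continuous_snd).continuousAt
  filter_upwards [h1, h3.eventually h1] with q hq hq' htI
  have e1 := hq ⟨trivial, htI⟩
  have e2 := hq' ⟨trivial, htI⟩
  rw [dist_eq_norm] at e1 e2
  have := norm_sub_le (F q.1 q.2 - F x₀ t) (F x₀ q.2 - F x₀ t)
  rw [sub_sub_sub_cancel_right] at this
  linarith

omit [Fintype n] [DecidableEq n] in
/-- Pointwise continuity with a locally uniform estimate gives joint continuity. -/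
theorem continuousOn_of_eventually_dist_le {E : Type*} [NormedAddCommGroup E] {F : X → ℝ → E}
    {I : Set ℝ} (h1 : ∀ x, ContinuousOn (F x) I)
    (h2 : ∀ x₀, ∀ ε > 0, ∀ᶠ x in 𝓝 x₀, ∀ t ∈ I, ‖F x t - F x₀ t‖ ≤ ε) :
    ContinuousOn (fun q : X × ℝ => F q.1 q.2) (univ ×ˢ I) := by
  rintro ⟨x₀, t₀⟩ ⟨-, ht₀⟩
  rw [ContinuousWithinAt, Metric.tendsto_nhds, nhdsWithin_prod_eq, nhdsWithin_univ]
  intro ε hε
  have e2 := Metric.tendsto_nhds.1 (h1 x₀ t₀ ht₀) (ε / 2) (half_pos hε)
  filter_upwards [(h2 x₀ (ε / 3) (by positivity)).prod_inl _, e2.prod_inr _,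
    (eventually_mem_nhdsWithin (a := t₀) (s := I)).prod_inr _] with q hq hq' hqI
  refine (dist_triangle _ (F x₀ q.2) _).trans_lt ?_
  rw [dist_eq_norm]
  linarith [hq q.2 hqI]

/-- Two nonnegative solutions stay as close as their data. -/
theorem riccati_dist_le {A B W V : ℝ → Op n} {ν : ℝ → ℝ} {a b K δ : ℝ}
    (hν : ContinuousOn ν (Icc a b)) (hK : ∀ t ∈ Icc a b, |ν t| ≤ K)
    (hW : IsRiccati A ν W a b) (hV : IsRiccati B ν V a b)
    (hWpos : ∀ t ∈ Icc a b, (W t).PosSemidef) (hVpos : ∀ t ∈ Icc a b, (V t).PosSemidef)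
    (hAB : ∀ t ∈ Icc a b, ‖A t - B t‖ ≤ δ) :
    ∀ t ∈ Icc a b, ‖W t - V t‖ ≤ Real.exp (K * (b - a)) * (‖W a - V a‖ + δ * (b - a)) := by
  intro t ht
  have hs' : Icc a t ⊆ Icc a b := Icc_subset_Icc_right ht.2
  have hK0 : 0 ≤ K := (abs_nonneg _).trans (hK t ht)
  have hδ : 0 ≤ δ := (norm_nonneg _).trans (hAB t ht)
  obtain ⟨Y, hYt, hY⟩ := Congr.exists_back_propagator (C := W) ht.1
    fun s hs => (hW s (hs' hs)).continuousAt.continuousWithinAt
  obtain ⟨Z, hZt, hZ⟩ := Congr.exists_back_propagator (C := V) ht.1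
    fun s hs => (hV s (hs' hs)).continuousAt.continuousWithinAt
  have hY1 := Congr.back_propagator_norm_le (fun s hs => hWpos s (hs' hs)) hYt hY
  have hZ1 := Congr.back_propagator_norm_le (fun s hs => hVpos s (hs' hs)) hZt hZ
  obtain ⟨ν', hν'c, hν'⟩ := exists_ext hν
  set e : ℝ → ℝ := fun s => Real.exp (∫ u in t..s, ν' u) with hedef
  set E := Real.exp (K * (b - a)) with hE
  have heE : ∀ s ∈ Icc a t, e s ≤ E := fun s hs => by
    refine Real.exp_le_exp.2 ((le_abs_self _).trans ?_)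
    have h1 := intervalIntegral.norm_integral_le_of_norm_le_const (f := ν') (a := t) (b := s)
      (C := K) fun u hu => by
        have hu' : u ∈ Icc a b := by
          rw [uIoc_of_ge hs.2] at hu
          exact ⟨hs.1.trans hu.1.le, hu.2.trans ht.2⟩
        rw [Real.norm_eq_abs, hν' hu']; exact hK u hu'
    rw [Real.norm_eq_abs] at h1
    refine h1.trans (mul_le_mul_of_nonneg_left ?_ hK0)
    rw [abs_of_nonpos (by linarith [hs.2])]
    linarith [hs.1, ht.2]
  have hmul : ∀ s ∈ Icc a t, ∀ M : Op n, ‖e s • (star (Y s) * M * Z s)‖ ≤ E * ‖M‖ := fun s hs M => by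
    rw [norm_smul, Real.norm_eq_abs, abs_of_nonneg (Real.exp_nonneg _)]
    refine mul_le_mul (heE s hs) ?_ (norm_nonneg _) (Real.exp_nonneg _)
    refine (norm_mul_le _ _).trans ((mul_le_of_le_one_right (norm_nonneg _) (hZ1 s hs)).trans ?_)
    refine (norm_mul_le _ _).trans (mul_le_of_le_one_left (norm_nonneg _) ?_)
    rw [norm_star]; exact hY1 s hs
  have hf : ∀ s ∈ Icc a t, HasDerivAt (fun s => e s • (star (Y s) * (W s - V s) * Z s))
      (e s • (star (Y s) * (A s - B s) * Z s)) s := fun s hs => by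
    refine ((hν'c.integral_hasStrictDerivAt t s).hasDerivAt.exp.smul
      (((hY s hs).star.mul ((hW s (hs' hs)).sub (hV s (hs' hs)))).mul (hZ s hs))).congr_deriv ?_
    simp only [Pi.mul_apply, Pi.sub_apply, hν' (hs' hs), star_mul, (hWpos s (hs' hs)).1.star_eq,
      hedef, add_mul, mul_sub, sub_mul, mul_smul_comm, smul_mul_assoc, mul_assoc]
    module
  have h := norm_image_sub_le_of_norm_deriv_le_segment' (C := E * δ)
    (fun s hs => (hf s hs).hasDerivWithinAt) (fun s hs =>
      (hmul s (Ico_subset_Icc_self hs) _).trans (mul_le_mul_of_nonneg_left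
        (hAB s (hs' (Ico_subset_Icc_self hs))) (Real.exp_nonneg _))) t (right_mem_Icc.2 ht.1)
  have h2 := hmul a (left_mem_Icc.2 ht.1) (W a - V a)
  have het : e t • (star (Y t) * (W t - V t) * Z t) = W t - V t := by simp [hedef, hYt, hZt]
  rw [het] at h
  have h3 := norm_le_norm_sub_add (W t - V t) (e a • (star (Y a) * (W a - V a) * Z a))
  have h4 : E * δ * (t - a) ≤ E * δ * (b - a) :=
    mul_le_mul_of_nonneg_left (by linarith [ht.2]) (by positivity)
  linarith

theorem riccati_param (A : X → ℝ → Op n) (hA : Continuous fun q : X × ℝ => A q.1 q.2)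
    {ν : ℝ → ℝ} {a b : ℝ} (hν : ContinuousOn ν (Icc a b)) (W : X → ℝ → Op n)
    (hW : ∀ x, IsRiccati (A x) ν (W x) a b) (hpos : ∀ x, ∀ t ∈ Icc a b, (W x t).PosSemidef)
    (h0 : Continuous fun x => W x a) :
    ContinuousOn (fun q : X × ℝ => W q.1 q.2) (univ ×ˢ Icc a b) := by
  refine continuousOn_of_eventually_dist_le
    (fun x t ht => (hW x t ht).continuousAt.continuousWithinAt) fun x₀ ε hε => ?_
  rcases lt_or_ge b a with hab | hab
  · exact Eventually.of_forall fun x t ht => absurd (ht.1.trans ht.2) (not_le.2 hab)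
  obtain ⟨K, hK⟩ := isCompact_Icc.exists_bound_of_continuousOn hν
  set E := Real.exp (K * (b - a))
  have hE : 0 < E * (1 + (b - a)) := by
    have := Real.exp_pos (K * (b - a))
    nlinarith
  set δ := ε / (E * (1 + (b - a))) with hδdef
  have hδ : 0 < δ := div_pos hε hE
  filter_upwards [eventually_dist_le isCompact_Icc hA.continuousOn x₀ hδ,
    (h0.tendsto x₀).eventually (Metric.closedBall_mem_nhds _ hδ)] with x hxA hx0 t ht
  rw [dist_eq_norm] at hx0
  refine (riccati_dist_le hν (fun s hs => by simpa using hK s hs) (hW x) (hW x₀) (hpos x)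
    (hpos x₀) hxA t ht).trans ?_
  calc E * (‖W x a - W x₀ a‖ + δ * (b - a)) ≤ E * (δ + δ * (b - a)) := by
        gcongr
    _ = δ * (E * (1 + (b - a))) := by ring
    _ = ε := div_mul_cancel₀ _ hE.ne'

theorem back_param {a b : ℝ} (W R : X → ℝ → Op n)
    (hW : ContinuousOn (fun q : X × ℝ => W q.1 q.2) (univ ×ˢ Icc a b))
    (hR : ∀ x, IsBack (W x) (R x) a b) :
    ContinuousOn (fun q : X × ℝ => R q.1 q.2) (univ ×ˢ Icc a b) := by
  have hRc : ∀ x, ContinuousOn (R x) (Icc a b) := fun x t ht =>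
    ((hR x).2 t ht).continuousAt.continuousWithinAt
  have hWc : ∀ x, ContinuousOn (W x) (Icc a b) := fun x =>
    hW.comp (continuous_const.prodMk continuous_id).continuousOn fun t ht => ⟨trivial, ht⟩
  refine continuousOn_of_eventually_dist_le hRc fun x₀ ε hε => ?_
  rcases lt_or_ge b a with hab | hab
  · exact Eventually.of_forall fun x t ht => absurd (ht.1.trans ht.2) (not_le.2 hab)
  obtain ⟨K, hK⟩ := isCompact_Icc.exists_bound_of_continuousOn (hWc x₀)
  obtain ⟨M, hM⟩ := isCompact_Icc.exists_bound_of_continuousOn (hRc x₀)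
  have hK0 : 0 ≤ K := (norm_nonneg _).trans (hK a (left_mem_Icc.2 hab))
  have hM0 : 0 ≤ M := (norm_nonneg _).trans (hM a (left_mem_Icc.2 hab))
  set C := Real.exp ((K + 1) * (b - a)) * (M * (b - a)) + 1 with hC
  have hC0 : 0 < C := by
    have := sub_nonneg.2 hab
    positivity
  filter_upwards [eventually_dist_le isCompact_Icc hW x₀ one_pos,
    eventually_dist_le isCompact_Icc hW x₀ (div_pos hε hC0)] with x h1 h2 t ht
  have hs' : Icc a t ⊆ Icc a b := Icc_subset_Icc_right ht.2
  have h := Congr.norm_le_gronwall (f := fun s => R x s - R x₀ s) (k := fun _ => K + 1)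
    (g := fun _ => M * (ε / C)) ht.1 (fun s hs => ((hR x).2 s (hs' hs)).sub ((hR x₀).2 s (hs' hs)))
    continuousOn_const continuousOn_const (fun _ _ => by positivity) (fun _ _ => by positivity)
    fun s hs => ?_
  · rw [(hR x).1, (hR x₀).1, sub_self, norm_zero, zero_add, intervalIntegral.integral_const,
      intervalIntegral.integral_const, smul_eq_mul, smul_eq_mul] at h
    refine h.trans ?_
    have hta := sub_nonneg.2 ht.1
    calc Real.exp ((t - a) * (K + 1)) * ((t - a) * (M * (ε / C)))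
        ≤ Real.exp ((b - a) * (K + 1)) * ((b - a) * (M * (ε / C))) := by
          gcongr <;> exact ht.2
      _ = (C - 1) * (ε / C) := by rw [hC]; ring_nf
      _ ≤ C * (ε / C) := by gcongr; linarith
      _ = ε := mul_div_cancel₀ _ hC0.ne'
  · have hs2 := hs' hs
    have e : -(R x s * W x s) - -(R x₀ s * W x₀ s) =
        -((R x s - R x₀ s) * W x s) + -(R x₀ s * (W x s - W x₀ s)) := by noncomm_ring
    rw [e]
    refine (norm_add_le _ _).trans ?_
    rw [norm_neg, norm_neg, mul_comm (K + 1)]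
    refine add_le_add ((norm_mul_le _ _).trans (mul_le_mul_of_nonneg_left ?_ (norm_nonneg _)))
      ((norm_mul_le _ _).trans (mul_le_mul (hM s hs2) (h2 s hs2) (norm_nonneg _) hM0))
    have := norm_le_norm_sub_add (W x s) (W x₀ s)
    linarith [hK s hs2, h1 s hs2]

end Vale.Agent.P225
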