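import Vale.Agent.P225.Riccati.Compare

/-!
P225, module E: smoothing in diagonal weights.
-/

noncomputable section

namespace Vale.Agent.P225

open Set Matrix
open scoped ComplexOrder Matrix.Norms.L2Operator

variable {n : Type*} [Fintype n] [DecidableEq n] {A W V R : ℝ → Op n} {ν : ℝ → ℝ} {a b c : ℝ}

/-- The weight `exp f`. -/
def wgt (f : n → ℝ) : Op n := diagonal fun x => (Real.exp (f x) : ℂ)

theorem wgt_add (f g : n → ℝ) : wgt f * wgt g = wgt (f + g) := by
  rw [wgt, wgt, wgt, diagonal_mul_diagonal]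
  congr 1
  funext x
  rw [← Complex.ofReal_mul, ← Real.exp_add, Pi.add_apply]

theorem norm_wgt_le_one {f : n → ℝ} (h : ∀ x, f x ≤ 0) : ‖wgt f‖ ≤ 1 := by
  rw [wgt, l2_opNorm_diagonal, pi_norm_le_iff_of_nonneg zero_le_one]
  intro x
  rw [Complex.norm_real, Real.norm_eq_abs, Real.abs_exp, Real.exp_le_one_iff]
  exact h x

omit [Fintype n] in
theorem isHermitian_wgt (f : n → ℝ) : (wgt f).IsHermitian :=
  isHermitian_diagonal_of_self_adjoint _ <| funext fun _ => Complex.conj_ofReal _

/-- What commutes with `f` commutes with the weights it generates. -/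
theorem commute_wgt {f : n → ℝ} {M : Op n} (h : Commute (diagonal fun x => (f x : ℂ)) M) (r : ℝ) :
    Commute (wgt fun x => r * f x) M := by
  ext i j
  have hij := congrFun (congrFun h.eq i) j
  simp only [diagonal_mul, mul_diagonal] at hij
  simp only [wgt, diagonal_mul, mul_diagonal]
  by_cases hM : M i j = 0
  · simp [hM]
  · rw [mul_comm (M i j)] at hij
    rw [Complex.ofReal_injective (mul_right_cancel₀ hM hij), mul_comm]

theorem norm_mul_wgt_mono (M : Op n) {f g : n → ℝ} (h : ∀ x, f x ≤ g x) :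
    ‖M * wgt f‖ ≤ ‖M * wgt g‖ := by
  rw [show wgt f = wgt g * wgt (f - g) by rw [wgt_add, add_sub_cancel], ← mul_assoc]
  exact (norm_mul_le _ _).trans (mul_le_of_le_one_right (norm_nonneg _)
    (norm_wgt_le_one fun x => sub_nonpos.2 (h x)))

theorem norm_wgt_mul_mono (M : Op n) {f g : n → ℝ} (h : ∀ x, f x ≤ g x) :
    ‖wgt f * M‖ ≤ ‖wgt g * M‖ := by
  rw [show wgt f = wgt (f - g) * wgt g by rw [wgt_add, sub_add_cancel], mul_assoc]
  exact (norm_mul_le _ _).trans (mul_le_of_le_one_left (norm_nonneg _)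
    (norm_wgt_le_one fun x => sub_nonpos.2 (h x)))

theorem norm_wgt_mul_herm {M : Op n} (hM : M.IsHermitian) (f : n → ℝ) :
    ‖wgt f * M‖ = ‖M * wgt f‖ := by
  rw [← norm_star (wgt f * M), star_mul, hM.star_eq, (isHermitian_wgt f).star_eq]

/-- What commutes with the coefficient commutes with the backward map. -/
theorem back_commute (hW : ContinuousOn W (Icc a b)) (hR : IsBack W R a b) {F : Op n}
    (hF : ∀ t ∈ Icc a b, Commute F (W t)) : ∀ t ∈ Icc a b, Commute F (R t) := fun t ht =>
  sub_eq_zero.1 (eq_zero_of_deriv_le (f := fun s => F * R s - R s * F)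
    (f' := fun s => -((F * R s - R s * F) * W s)) (K := fun s => ‖W s‖)
    (fun s hs => (((hR.2 s hs).const_mul F).sub ((hR.2 s hs).mul_const F)).congr_deriv (by
      rw [mul_neg, neg_mul, mul_assoc (R s), ← (hF s hs).eq]
      noncomm_ring))
    hW.norm (fun s _ => by rw [norm_neg, mul_comm ‖W s‖]; exact norm_mul_le _ _)
    (by simp [hR.1]) t ht)

/-- A backward map of `W ≥ 0` is a contraction. -/
theorem back_norm_le_one (hW : ContinuousOn W (Icc a b)) (hR : IsBack W R a b)
    (h : ∀ t ∈ Icc a b, (W t).PosSemidef) : ∀ t ∈ Icc a b, ‖R t‖ ≤ 1 := fun t ht => by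
  simpa using back_norm_le hR hW (m := fun _ => 0) continuous_const
    (fun s hs => by simpa using h s hs) t ht

/-- A backward map of `W ≥ f`, with `f` commuting with `W`, gains the weight `(b - a) f`. -/
theorem back_smoothing (hab : a ≤ b) (hW : ContinuousOn W (Icc a b)) (hR : IsBack W R a b)
    {f : n → ℝ} (hcomm : ∀ t ∈ Icc a b, Commute (diagonal fun x => (f x : ℂ)) (W t))
    (h : ∀ t ∈ Icc a b, (W t - diagonal fun x => (f x : ℂ)).PosSemidef) :
    ‖wgt (fun x => (b - a) * f x) * R b‖ ≤ 1 ∧ ‖R b * wgt (fun x => (b - a) * f x)‖ ≤ 1 := by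
  have hb := right_mem_Icc.2 hab
  have hRc := back_commute hW hR hcomm b hb
  suffices key : ‖R b * wgt (fun x => (b - a) * f x)‖ ≤ 1 from
    ⟨by rwa [(commute_wgt hRc (b - a)).eq], key⟩
  set F : Op n := diagonal fun x => (f x : ℂ) with hF
  set G : ℝ → Op n := fun s => wgt fun x => (s - a) * f x with hG
  have hG' : ∀ s, HasDerivAt G (G s * F) s := fun s => by
    have h1 : HasDerivAt (fun s x => ((Real.exp ((s - a) * f x) : ℝ) : ℂ))
        (fun x => ((Real.exp ((s - a) * f x) : ℝ) : ℂ) * (f x : ℂ)) s := hasDerivAt_pi.2 fun x => by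
      simpa using ((((hasDerivAt_id s).sub_const a).mul_const (f x)).exp).ofReal_comp
    have h2 := (LinearMap.toContinuousLinearMap
      (diagonalLinearMap n ℝ ℂ)).hasFDerivAt.comp_hasDerivAt s h1
    refine h2.congr_deriv ?_
    simp [hG, hF, wgt, diagonal_mul_diagonal]
  have hY : IsBack (fun s => W s - F) (fun s => R s * G s) a b := by
    refine ⟨by simp [hG, hR.1, wgt], fun s hs =>
      ((hR.2 s hs).mul (hG' s)).congr_deriv ?_⟩
    simp only [mul_sub, mul_assoc, neg_mul, (commute_wgt (hcomm s hs) (s - a)).eq, hG]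
    abel
  exact back_norm_le_one (hW.sub continuousOn_const) hY h b hb

/-- A weight commuting with `W ≥ 0` passes through the backward map. -/
theorem back_weight (hab : a ≤ b) (hW : ContinuousOn W (Icc a b)) (hR : IsBack W R a b)
    {f : n → ℝ} (hpos : ∀ t ∈ Icc a b, (W t).PosSemidef)
    (hcomm : ∀ t ∈ Icc a b, Commute (diagonal fun x => (f x : ℂ)) (W t)) :
    ∀ M : Op n, ‖M * R b * wgt f‖ ≤ ‖M * wgt f‖ := by
  intro M
  have hb := right_mem_Icc.2 hab
  have h1 : Commute (wgt f) (R b) := by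
    simpa using commute_wgt (back_commute hW hR hcomm b hb) 1
  rw [mul_assoc, ← h1.eq, ← mul_assoc]
  exact (norm_mul_le _ _).trans
    (mul_le_of_le_one_right (norm_nonneg _) (back_norm_le_one hW hR hpos b hb))

/-- The difference of two solutions seen through the backward map `Q` of the second one. -/
theorem riccati_diff_mul_le (hab : a ≤ b) (hν : ∀ t ∈ Icc a b, c ≤ ν t)
    (hνc : ContinuousOn ν (Icc a b)) (hW : IsRiccati A ν W a b) (hV : IsRiccati A ν V a b)
    (hWpos : ∀ t ∈ Icc a b, (W t).PosSemidef) :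
    ∃ Q : ℝ → Op n, IsBack V Q a b ∧ ∀ M : Op n,
      ‖(W b - V b) * M‖ ≤ Real.exp (-c * (b - a)) * ‖(W a - V a) * (Q b * M)‖ := by
  have hWc : ContinuousOn W (Icc a b) := fun s hs => (hW s hs).continuousAt.continuousWithinAt
  obtain ⟨R, hR⟩ := exists_back hWc
  obtain ⟨Q, hQ⟩ := exists_back (W := V) (a := a) (b := b)
    fun s hs => (hV s hs).continuousAt.continuousWithinAt
  refine ⟨Q, hQ, fun M => ?_⟩
  obtain ⟨ν', hν'c, hν'⟩ := exists_ext hνc
  set e : ℝ → ℝ := fun s => Real.exp (-∫ u in a..s, ν' u) with he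
  have hb := right_mem_Icc.2 hab
  have key := riccati_diff (P := fun s => star (R s)) (Q := Q) (e := e) hνc hW hV
    (fun s hs => ((hR.2 s hs).star).congr_deriv (by
      rw [star_neg, star_mul, (hWpos s hs).1.star_eq]))
    hQ.2 (fun s hs => by
      refine (hν'c.integral_hasStrictDerivAt a s).hasDerivAt.neg.exp.congr_deriv ?_
      rw [hν' hs]
      simp only [he, Pi.neg_apply]
      ring)
    (by simp [he]) (by simp [hR.1]) hQ.1 b hb
  have heb : e b ≤ Real.exp (-c * (b - a)) := by
    refine Real.exp_le_exp.2 ?_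
    have h1 : ∫ _u in a..b, c ≤ ∫ u in a..b, ν' u :=
      intervalIntegral.integral_mono_on hab intervalIntegrable_const
        (hν'c.intervalIntegrable _ _) fun u hu => by rw [hν' hu]; exact hν u hu
    rw [intervalIntegral.integral_const, smul_eq_mul] at h1
    linarith
  rw [key, smul_mul_assoc, norm_smul, Real.norm_eq_abs, abs_of_nonneg (Real.exp_nonneg _),
    mul_assoc (star (R b) * _), mul_assoc (star (R b))]
  refine mul_le_mul heb ((norm_mul_le _ _).trans (mul_le_of_le_one_left (norm_nonneg _) ?_))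
    (norm_nonneg _) (Real.exp_nonneg _)
  rw [norm_star]
  exact back_norm_le_one hWc hR hWpos b hb

set_option linter.unusedVariables false in
/-- The difference of two solutions is smoothing where the reference is block diagonal. -/
theorem riccati_diff_smoothing (hab : a ≤ b) (hν : ∀ t ∈ Icc a b, c ≤ ν t)
    (hνc : ContinuousOn ν (Icc a b)) (hW : IsRiccati A ν W a b) (hV : IsRiccati A ν V a b)
    (hWpos : ∀ t ∈ Icc a b, (W t).PosSemidef) (hVpos : ∀ t ∈ Icc a b, (V t).PosSemidef)
    {f : n → ℝ} (hcomm : ∀ t ∈ Icc a b, Commute (diagonal fun x => (f x : ℂ)) (V t))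
    (h : ∀ t ∈ Icc a b, (V t - diagonal fun x => (f x : ℂ)).PosSemidef) :
    ‖(W b - V b) * wgt (fun x => (b - a) * f x)‖ ≤ Real.exp (-c * (b - a)) * ‖W a - V a‖ := by
  obtain ⟨Q, hQ, hd⟩ := riccati_diff_mul_le hab hν hνc hW hV hWpos
  refine (hd _).trans (mul_le_mul_of_nonneg_left ?_ (Real.exp_nonneg _))
  exact (norm_mul_le _ _).trans (mul_le_of_le_one_right (norm_nonneg _)
    (back_smoothing hab (fun s hs => (hV s hs).continuousAt.continuousWithinAt) hQ hcomm h).2)

/-- Smoothing already present is kept. -/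
theorem riccati_diff_weight (hab : a ≤ b) (hν : ∀ t ∈ Icc a b, c ≤ ν t)
    (hνc : ContinuousOn ν (Icc a b)) (hW : IsRiccati A ν W a b) (hV : IsRiccati A ν V a b)
    (hWpos : ∀ t ∈ Icc a b, (W t).PosSemidef) (hVpos : ∀ t ∈ Icc a b, (V t).PosSemidef)
    {f : n → ℝ} (hcomm : ∀ t ∈ Icc a b, Commute (diagonal fun x => (f x : ℂ)) (V t)) :
    ‖(W b - V b) * wgt f‖ ≤ Real.exp (-c * (b - a)) * ‖(W a - V a) * wgt f‖ := by
  obtain ⟨Q, hQ, hd⟩ := riccati_diff_mul_le hab hν hνc hW hV hWpos
  refine (hd _).trans (mul_le_mul_of_nonneg_left ?_ (Real.exp_nonneg _))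
  rw [← mul_assoc]
  exact back_weight hab (fun s hs => (hV s hs).continuousAt.continuousWithinAt) hQ hVpos hcomm _

set_option linter.unusedVariables false in
/-- Gain and old weight together; `g` may be negative, so a difference bounded only relative to a
growing weight becomes bounded. -/
theorem riccati_diff_gain (hab : a ≤ b) (hν : ∀ t ∈ Icc a b, c ≤ ν t)
    (hνc : ContinuousOn ν (Icc a b)) (hW : IsRiccati A ν W a b) (hV : IsRiccati A ν V a b)
    (hWpos : ∀ t ∈ Icc a b, (W t).PosSemidef) (hVpos : ∀ t ∈ Icc a b, (V t).PosSemidef)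
    {f g : n → ℝ} (hcomm : ∀ t ∈ Icc a b, Commute (diagonal fun x => (f x : ℂ)) (V t))
    (hgcomm : ∀ t ∈ Icc a b, Commute (diagonal fun x => (g x : ℂ)) (V t))
    (h : ∀ t ∈ Icc a b, (V t - diagonal fun x => (f x : ℂ)).PosSemidef) :
    ‖(W b - V b) * wgt (fun x => (b - a) * f x + g x)‖ ≤
      Real.exp (-c * (b - a)) * ‖(W a - V a) * wgt g‖ := by
  obtain ⟨Q, hQ, hd⟩ := riccati_diff_mul_le hab hν hνc hW hV hWpos
  have hVc : ContinuousOn V (Icc a b) := fun s hs => (hV s hs).continuousAt.continuousWithinAt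
  refine (hd _).trans (mul_le_mul_of_nonneg_left ?_ (Real.exp_nonneg _))
  have h1 : Commute (wgt g) (Q b) := by
    simpa using commute_wgt (back_commute hVc hQ hgcomm b (right_mem_Icc.2 hab)) 1
  rw [show (fun x => (b - a) * f x + g x) = g + fun x => (b - a) * f x from
    funext fun x => add_comm _ _, ← wgt_add, ← mul_assoc (Q b), ← h1.eq, mul_assoc (wgt g),
    ← mul_assoc]
  exact (norm_mul_le _ _).trans (mul_le_of_le_one_right (norm_nonneg _)
    (back_smoothing hab hVc hQ hcomm h).2)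

end Vale.Agent.P225
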