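import Vale.Agent.P225.Riccati.Compare
import Vale.Agent.P225.Riccati.Gronwall

/-!
P225, module E: the interaction backward map of one stage tends to the word of exponentials, and
the free tail after the control only costs the size of the jump.
-/

noncomputable section

namespace Vale.Agent.P225

open Set NormedSpace MeasureTheory
open scoped ComplexOrder Matrix.Norms.L2Operator

variable {n : Type*} [Fintype n] [DecidableEq n]

/-- The control profile: bump number `i` lives in `(i, i + 1)`. -/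
def ctrlProfile {m : ℕ} (φ : ℝ → ℝ) (B : Fin m → Op n) (p : Fin m → ℝ) (s : ℝ) : Op n :=
  ∑ i, (p i * φ (s - i)) • B i

/-- The data of a control interval compared with the free solution. `η ≥ ε` measures how far the
free solution is from the frozen values `αs`, `νs`. -/
structure IsCtrlStage {m : ℕ} (φ : ℝ → ℝ) (B : Fin m → Op n) (p : Fin m → ℝ) (C ε η αs νs a : ℝ)
    (A A0 W V Q R : ℝ → Op n) (ν α : ℝ → ℝ) : Prop where
  hA : ∀ t ∈ Icc a (a + m / ε),
    ‖A t - A0 t - ε • ctrlProfile φ B p (ε * (t - a))‖ ≤ C * ε * η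
  hW : IsRiccati A ν W a (a + m / ε)
  hV : IsRiccati A0 ν V a (a + m / ε)
  hWpos : ∀ t ∈ Icc a (a + m / ε), (W t).PosSemidef
  hVpos : ∀ t ∈ Icc a (a + m / ε), (V t).PosSemidef
  hQ : IsBack W Q a (a + m / ε)
  hR : IsBack V R a (a + m / ε)
  start : W a = V a
  hν : ContinuousOn ν (Icc a (a + m / ε))
  hα : ContinuousOn α (Icc a (a + m / ε))
  nearν : ∀ t ∈ Icc a (a + m / ε), |ν t - νs| ≤ C * η
  nearV : ∀ t ∈ Icc a (a + m / ε), ‖V t - (αs : ℂ) • (1 : Op n)‖ ≤ C * η
  nearα : ∫ t in a..(a + m / ε), ‖V t - (α t : ℂ) • (1 : Op n)‖ ≤ C * η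

section Tools

/-- A solution of `Z' = -(Z (φ B))` is multiplied by an exponential. -/
theorem smul_piece {Z : ℝ → Op n} {B : Op n} {φ Φ : ℝ → ℝ} {a b : ℝ} (hab : a ≤ b)
    (hφ : ContinuousOn φ (Icc a b)) (hΦ : ∀ t ∈ Icc a b, HasDerivAt Φ (φ t) t)
    (hZ : ∀ t ∈ Icc a b, HasDerivAt Z (-(Z t * (φ t • B))) t) :
    Z b = Z a * exp (-(Φ b - Φ a) • B) := by
  set G : ℝ → Op n := fun t => exp (-(Φ t - Φ a) • B)
  have hG : ∀ t ∈ Icc a b, HasDerivAt G (-(G t * (φ t • B))) t := fun t ht => by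
    refine ((hasDerivAt_exp_smul_const (𝕂 := ℝ) B (-(Φ t - Φ a))).scomp t
      (((hΦ t ht).sub_const (Φ a)).neg)).congr_deriv ?_
    simp only [G, mul_smul_comm, neg_smul]
  refine sub_eq_zero.1 (eq_zero_of_deriv_le (f := fun t => Z t - Z a * G t)
    (f' := fun t => -((Z t - Z a * G t) * (φ t • B))) (K := fun t => ‖φ t • B‖) (fun t ht => ?_)
    (hφ.smul continuousOn_const).norm (fun t _ => ?_) (by simp [G]) b (right_mem_Icc.2 hab))
  · refine ((hZ t ht).sub ((hG t ht).const_mul (Z a))).congr_deriv ?_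
    rw [sub_mul, mul_neg, mul_assoc]
    abel
  · rw [norm_neg, mul_comm (‖φ t • B‖)]
    exact norm_mul_le _ _

/-- The difference of two solutions, as a damped linear equation. -/
theorem riccati_sub_deriv {A A0 W V : Op n} (ν : ℝ) :
    (A - W * W - ν • W) - (A0 - V * V - ν • V) =
      -((1/2 : ℝ) • (W + V) * (W - V) + (W - V) * ((1/2 : ℝ) • (W + V))) - ν • (W - V)
        + (A - A0) := by
  simp only [smul_add, add_mul, mul_add, mul_sub, sub_mul, smul_mul_assoc, mul_smul_comm, smul_sub]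
  module

/-- The interaction map. -/
theorem interaction_deriv {W V Q R S : ℝ → Op n} {a b : ℝ} (hQ : IsBack W Q a b)
    (hR : IsBack V R a b) (hS0 : S a = 1) (hS : ∀ t ∈ Icc a b, HasDerivAt S (V t * S t) t) :
    ∀ t ∈ Icc a b, HasDerivAt (fun u => Q u * S u)
      (-(Q t * S t * (R t * (W t - V t) * S t))) t := fun t ht => by
  refine ((hQ.2 t ht).mul (hS t ht)).congr_deriv ?_
  have h : S t * R t = 1 := mul_eq_one_comm.1 (back_mul_fwd hR hS0 hS t ht)
  rw [show Q t * S t * (R t * (W t - V t) * S t) = Q t * (S t * R t) * (W t - V t) * S t by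
    noncomm_ring, h]
  noncomm_ring

theorem integral_le_const {h : ℝ → ℝ} {a b c : ℝ} (hab : a ≤ b) (hh : ContinuousOn h (Icc a b))
    (hc : ∀ t ∈ Icc a b, h t ≤ c) : ∫ t in a..b, h t ≤ (b - a) * c := by
  have h1 := intervalIntegral.integral_mono_on hab (hh.intervalIntegrable_of_Icc hab)
    (intervalIntegrable_const (μ := volume) (c := c)) hc
  rwa [intervalIntegral.integral_const, smul_eq_mul] at h1

theorem hasDerivAt_ctrlProfile {m : ℕ} {φ : ℝ → ℝ} (hφ : ContDiff ℝ 1 φ) (B : Fin m → Op n)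
    (p : Fin m → ℝ) (s : ℝ) :
    HasDerivAt (ctrlProfile φ B p) (ctrlProfile (deriv φ) B p s) s := by
  unfold ctrlProfile
  refine HasDerivAt.fun_sum fun i _ => ?_
  exact (((hφ.differentiable (by norm_num)) (s - i)).hasDerivAt.comp_sub_const s (i : ℝ)
    |>.const_mul (p i)).smul_const (B i)

theorem norm_ctrlProfile_le {m : ℕ} {φ : ℝ → ℝ} {Φ M : ℝ} (hΦ : ∀ s, ‖φ s‖ ≤ Φ)
    (B : Fin m → Op n) {p : Fin m → ℝ} (hp : ‖p‖ ≤ M) (s : ℝ) :
    ‖ctrlProfile φ B p s‖ ≤ M * Φ * ∑ i, ‖B i‖ := by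
  rw [Finset.mul_sum]
  refine (norm_sum_le _ _).trans (Finset.sum_le_sum fun i _ => ?_)
  rw [norm_smul, norm_mul]
  refine mul_le_mul_of_nonneg_right ?_ (norm_nonneg _)
  exact mul_le_mul ((norm_le_pi_norm p i).trans hp) (hΦ _) (norm_nonneg _)
    ((norm_nonneg p).trans hp)

theorem exists_bound {φ : ℝ → ℝ} (hc : Continuous φ)
    (hsupp : ∀ s, s ∉ Icc (0 : ℝ) 1 → φ s = 0) : ∃ Φ, ∀ s, ‖φ s‖ ≤ Φ :=
  hc.bounded_above_of_compact_support (HasCompactSupport.intro isCompact_Icc hsupp)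

/-- A damped solution follows the quasi-stationary value `e`. -/
theorem follow_le {Cm D e e' g : ℝ → Op n} {ν : ℝ → ℝ} {a b c αs νs δ1 δ2 δ3 δ4 σ : ℝ}
    (hc : 0 < c) (hν : ∀ t ∈ Icc a b, c ≤ ν t) (hνc : ContinuousOn ν (Icc a b))
    (hCc : ContinuousOn Cm (Icc a b)) (hC : ∀ t ∈ Icc a b, (Cm t).PosSemidef)
    (hD : ∀ t ∈ Icc a b, HasDerivAt D (-(Cm t * D t + D t * Cm t) - ν t • D t + g t) t)
    (he : ∀ t ∈ Icc a b, HasDerivAt e (e' t) t) (hD0 : D a = 0) (he0 : e a = 0)
    (h1 : ∀ t ∈ Icc a b, ‖g t - (2 * αs + νs) • e t‖ ≤ δ1)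
    (h2 : ∀ t ∈ Icc a b, ‖e' t‖ ≤ δ2)
    (h3 : ∀ t ∈ Icc a b, ‖Cm t - (αs : ℂ) • (1 : Op n)‖ ≤ δ3)
    (h4 : ∀ t ∈ Icc a b, |ν t - νs| ≤ δ4) (h5 : ∀ t ∈ Icc a b, ‖e t‖ ≤ σ) :
    ∀ t ∈ Icc a b, ‖D t - e t‖ ≤ (δ1 + δ2 + 2 * δ3 * σ + δ4 * σ) / c := fun t ht => by
  have hs : Icc a t ⊆ Icc a b := Icc_subset_Icc_right ht.2
  have h := damped_bound (R := fun u => D u - e u)
    (g := fun u => g u - e' u - (Cm u * e u + e u * Cm u) - ν u • e u) ht.1 hc
    (δ := δ1 + δ2 + 2 * δ3 * σ + δ4 * σ) (fun s hs' => hν s (hs hs')) (hνc.mono hs) (hCc.mono hs)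
    (fun s hs' => hC s (hs hs')) (fun s hs' => ?_) (fun s hs' => ?_)
  · simpa [hD0, he0] using h
  · have hb := hs hs'
    have eq : g s - e' s - (Cm s * e s + e s * Cm s) - ν s • e s =
        (g s - (2 * αs + νs) • e s) - e' s - ((Cm s - (αs : ℂ) • (1 : Op n)) * e s +
          e s * (Cm s - (αs : ℂ) • (1 : Op n))) - (ν s - νs) • e s := by
      simp only [sub_mul, mul_sub, Complex.coe_smul, smul_mul_assoc, mul_smul_comm, one_mul,
        mul_one]
      module
    rw [eq]
    have k3 := h3 s hb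
    have k5 := h5 s hb
    have n3 : 0 ≤ δ3 := (norm_nonneg _).trans k3
    have n5 : 0 ≤ σ := (norm_nonneg _).trans k5
    have n4 : 0 ≤ δ4 := (abs_nonneg _).trans (h4 s hb)
    calc _ ≤ ‖g s - (2 * αs + νs) • e s‖ + ‖e' s‖ + (‖Cm s - (αs : ℂ) • (1 : Op n)‖ * ‖e s‖ +
          ‖e s‖ * ‖Cm s - (αs : ℂ) • (1 : Op n)‖) + |ν s - νs| * ‖e s‖ := by
          refine (norm_sub_le _ _).trans (add_le_add ((norm_sub_le _ _).trans (add_le_add
            (norm_sub_le _ _) ((norm_add_le _ _).trans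
              (add_le_add (norm_mul_le _ _) (norm_mul_le _ _))))) ?_)
          rw [norm_smul, Real.norm_eq_abs]
      _ ≤ δ1 + δ2 + (δ3 * σ + σ * δ3) + δ4 * σ := by
          gcongr
          · exact h1 s hb
          · exact h2 s hb
          · exact h4 s hb
      _ = _ := by ring
  · refine ((hD s (hs hs')).sub (he s (hs hs'))).congr_deriv ?_
    simp only [mul_sub, sub_mul]
    module

/-- When `V` is scalar up to a small integral, conjugation by its propagator is close to the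
identity. -/
theorem scalar_ref [Nonempty n] {V R S : ℝ → Op n} {α : ℝ → ℝ} {a b C0 δ : ℝ}
    (hVc : ContinuousOn V (Icc a b)) (hαc : ContinuousOn α (Icc a b)) (hR : IsBack V R a b)
    (hS0 : S a = 1) (hS : ∀ t ∈ Icc a b, HasDerivAt S (V t * S t) t)
    (hint : ∫ t in a..b, ‖V t - (α t : ℂ) • (1 : Op n)‖ ≤ δ) (hδ : δ ≤ C0)
    (hsmall : Real.exp C0 * δ ≤ 1 / 2) :
    ∀ t ∈ Icc a b, ∀ D : Op n, ‖R t * D * S t‖ ≤ 4 * ‖D‖ ∧
      ‖R t * D * S t - D‖ ≤ 4 * (Real.exp C0 * δ) * ‖D‖ := fun t ht D => by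
  obtain ⟨α', hα'c, hα'⟩ := exists_ext hαc
  set I : ℝ → ℝ := fun t => ∫ u in a..t, α' u with hIdef
  have hI : ∀ t, HasDerivAt (fun t => Real.exp (I t)) (Real.exp (I t) * α' t) t := fun t =>
    (hα'c.integral_hasStrictDerivAt a t).hasDerivAt.exp
  have hs : Icc a t ⊆ Icc a b := Icc_subset_Icc_right ht.2
  set Y : ℝ → Op n := fun t => Real.exp (I t) • R t with hYdef
  set T : Op n := Real.exp (-I t) • S t with hTdef
  have hYT : Y t * T = 1 := by
    rw [hYdef, hTdef, smul_mul_smul_comm, ← Real.exp_add, add_neg_cancel, Real.exp_zero, one_smul,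
      back_mul_fwd hR hS0 hS t ht]
  have hVα : ContinuousOn (fun t => V t - (α t : ℂ) • (1 : Op n)) (Icc a b) :=
    hVc.sub ((Complex.continuous_ofReal.comp_continuousOn hαc).smul continuousOn_const)
  have h0 : 0 ≤ ∫ u in a..t, ‖V u - (α u : ℂ) • (1 : Op n)‖ :=
    intervalIntegral.integral_nonneg ht.1 fun u _ => norm_nonneg _
  have h2 : ∫ u in a..t, ‖V u - (α u : ℂ) • (1 : Op n)‖ ≤ δ := by
    have h3 := intervalIntegral.integral_add_adjacent_intervals (a := a) (b := t) (c := b)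
      (f := fun u => ‖V u - (α u : ℂ) • (1 : Op n)‖) (μ := volume)
      ((hVα.mono hs).norm.intervalIntegrable_of_Icc ht.1)
      ((hVα.mono (Icc_subset_Icc_left ht.1)).norm.intervalIntegrable_of_Icc ht.2)
    have h4 : 0 ≤ ∫ u in t..b, ‖V u - (α u : ℂ) • (1 : Op n)‖ :=
      intervalIntegral.integral_nonneg ht.2 fun u _ => norm_nonneg _
    linarith
  have hY : ‖Y t - 1‖ ≤ Real.exp C0 * δ := by
    have h1 := propagator_sub_le (Y := Y) (Z := fun _ => (1 : Op n))
      (K := fun u => V u - (α u : ℂ) • (1 : Op n)) (L := fun _ => 0) ht.1 (hVα.mono hs)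
      continuousOn_const (fun u hu => ?_) (fun u _ => by simpa using hasDerivAt_const u (1 : Op n))
      (by simp [hYdef, hIdef, hR.1]) rfl
    · simp only [norm_zero, intervalIntegral.integral_zero, add_zero, sub_zero] at h1
      exact h1.trans (mul_le_mul (Real.exp_le_exp.2 (h2.trans hδ)) h2 h0 (Real.exp_nonneg _))
    · refine ((hI u).smul (hR.2 u (hs hu))).congr_deriv ?_
      simp only [hYdef, hα' (hs hu), Complex.coe_smul, mul_sub, smul_mul_assoc, mul_smul_comm,
        mul_one, smul_neg]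
      module
  have hY2 : ‖Y t‖ ≤ 2 := by
    have h1 := norm_sub_norm_le (Y t) 1
    rw [norm_one] at h1
    linarith
  have e1 : T - 1 = -((Y t - 1) * T) := by rw [sub_mul, one_mul, hYT]; abel
  have hT1 : ‖T - 1‖ ≤ Real.exp C0 * δ * ‖T‖ := by
    rw [e1, norm_neg]
    exact (norm_mul_le _ _).trans (mul_le_mul_of_nonneg_right hY (norm_nonneg _))
  have hT2 : ‖T‖ ≤ 2 := by
    have h1 := norm_sub_norm_le T 1
    rw [norm_one] at h1
    have h3 := mul_le_mul_of_nonneg_right hsmall (norm_nonneg T)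
    linarith
  have hδ0 : 0 ≤ Real.exp C0 * δ := (norm_nonneg _).trans hY
  have hK : R t * D * S t = Y t * D * T := by
    simp only [hYdef, hTdef, smul_mul_assoc, mul_smul_comm, smul_smul, ← Real.exp_add,
      neg_add_cancel, Real.exp_zero, one_smul]
  rw [hK]
  refine ⟨?_, ?_⟩
  · calc ‖Y t * D * T‖ ≤ ‖Y t‖ * ‖D‖ * ‖T‖ :=
          (norm_mul_le _ _).trans (mul_le_mul_of_nonneg_right (norm_mul_le _ _) (norm_nonneg _))
      _ ≤ 2 * ‖D‖ * 2 := by gcongr
      _ = _ := by ring
  · rw [show Y t * D * T - D = (Y t - 1) * D * T + D * (T - 1) by noncomm_ring]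
    calc _ ≤ ‖Y t - 1‖ * ‖D‖ * ‖T‖ + ‖D‖ * ‖T - 1‖ := by
          refine (norm_add_le _ _).trans (add_le_add ?_ (norm_mul_le _ _))
          exact (norm_mul_le _ _).trans
            (mul_le_mul_of_nonneg_right (norm_mul_le _ _) (norm_nonneg _))
      _ ≤ Real.exp C0 * δ * ‖D‖ * 2 + ‖D‖ * (Real.exp C0 * δ * 2) := by
          gcongr
          exact hT1.trans (mul_le_mul_of_nonneg_left hT2 hδ0)
      _ = _ := by ring

/-- The propagator of the rescaled profile is the word of exponentials. -/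
theorem profile_word {m : ℕ} {φ : ℝ → ℝ} (hc : Continuous φ)
    (hsupp : ∀ s, s ∉ Ioo (0 : ℝ) 1 → φ s = 0) (hint : ∫ s in (0 : ℝ)..1, φ s = 1)
    (B : Fin m → Op n) (p : Fin m → ℝ) {κ ε a : ℝ} (hε : 0 < ε) {Z : ℝ → Op n} (hZ0 : Z a = 1)
    (hZ : ∀ t, HasDerivAt Z (-(Z t * ((ε * κ) • ctrlProfile φ B p (ε * (t - a))))) t) :
    Z (a + m / ε) = (List.ofFn fun i => exp ((-(κ * p i)) • B i)).prod := by
  have hlist : ∀ k : ℕ, k ≤ m → Z (a + k / ε) =
      ((List.ofFn fun i => exp ((-(κ * p i)) • B i)).take k).prod := by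
    intro k
    induction k with
    | zero => intro _; simp [hZ0]
    | succ k ih =>
      intro hk
      rw [List.prod_take_succ _ _ (by simpa using hk), ← ih (by omega), List.getElem_ofFn]
      have hle : a + (k : ℝ) / ε ≤ a + ((k + 1 : ℕ) : ℝ) / ε := by
        gcongr; exact_mod_cast k.le_succ
      set j : Fin m := ⟨k, by omega⟩
      have hpiece : ∀ t ∈ Icc (a + (k : ℝ) / ε) (a + ((k + 1 : ℕ) : ℝ) / ε),
          HasDerivAt Z (-(Z t * ((ε * κ * (p j * φ (ε * (t - a) - k))) • B j))) t := fun t ht => by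
        refine (hZ t).congr_deriv ?_
        have h1 : (k : ℝ) ≤ ε * (t - a) := by
          have := ht.1; rw [← le_sub_iff_add_le', div_le_iff₀ hε] at this; linarith
        have h2 : ε * (t - a) ≤ k + 1 := by
          have := ht.2; rw [← sub_le_iff_le_add', le_div_iff₀ hε] at this
          push_cast at this; linarith
        simp only [ctrlProfile]
        rw [Finset.sum_eq_single j ?_ (by simp), smul_smul]
        intro i _ hij
        rw [hsupp _ ?_, mul_zero, zero_smul]
        rintro ⟨h3, h4⟩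
        rcases lt_trichotomy (i : ℕ) k with h5 | h5 | h5
        · have : ((i : ℕ) : ℝ) + 1 ≤ k := by exact_mod_cast h5
          linarith
        · exact hij (Fin.ext h5)
        · have : (k : ℝ) + 1 ≤ ((i : ℕ) : ℝ) := by exact_mod_cast h5
          linarith
      have hj := smul_piece (Φ := fun t => κ * p j * ∫ u in (0:ℝ)..(ε * (t - a) - k), φ u) hle
        (Continuous.continuousOn (by fun_prop)) (fun t _ => ?_) hpiece
      · rw [hj]
        have e0 : ε * (a + (k : ℝ) / ε - a) - k = 0 := by field_simp; ring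
        have e1 : ε * (a + ((k + 1 : ℕ) : ℝ) / ε - a) - k = 1 := by push_cast; field_simp; ring
        simp only [e0, e1, intervalIntegral.integral_same, hint, mul_zero, sub_zero, mul_one]
      · refine (((hc.integral_hasStrictDerivAt 0 _).hasDerivAt.comp t
          ((((hasDerivAt_id t).sub_const a).const_mul ε).sub_const (k : ℝ))).const_mul
          (κ * p j)).congr_deriv ?_
        simp only [id_eq, mul_one]
        ring
  rw [hlist m le_rfl, List.take_of_length_le (by simp)]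

end Tools

/-- The stage limit. -/
theorem stage_limit {m : ℕ} (φ : ℝ → ℝ) (hφ : ContDiff ℝ 1 φ)
    (hsupp : ∀ s, s ∉ Ioo (0 : ℝ) 1 → φ s = 0) (hint : ∫ s in (0 : ℝ)..1, φ s = 1)
    (B : Fin m → Op n) (hB : ∀ i, (B i).IsHermitian) {αs νs : ℝ} (hαs : 0 ≤ αs) (hνs : 0 < νs)
    (C M : ℝ) :
    ∃ C' ε0 : ℝ, 0 < ε0 ∧ ∀ (p : Fin m → ℝ) (ε η a : ℝ) (A A0 W V Q R : ℝ → Op n) (ν α : ℝ → ℝ),
      0 < ε → ε ≤ η → η ≤ ε0 → ‖p‖ ≤ M → IsCtrlStage φ B p C ε η αs νs a A A0 W V Q R ν α →
        ‖W (a + m / ε) - V (a + m / ε)‖ ≤ C' * ε ∧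
        ‖Q (a + m / ε) * (R (a + m / ε))⁻¹ -
          (List.ofFn fun i => exp ((-(p i) / (2 * αs + νs)) • B i)).prod‖ ≤ C' * η := by
  obtain ⟨Φ0, hΦ0⟩ := exists_bound hφ.continuous
    (fun s hs => hsupp s fun h => hs (Ioo_subset_Icc_self h))
  obtain ⟨Φ1, hΦ1⟩ := exists_bound (hφ.continuous_deriv le_rfl) (fun s hs => by
    have h : φ =ᶠ[nhds s] fun _ => 0 :=
      Filter.eventually_of_mem (isClosed_Icc.isOpen_compl.mem_nhds hs)
        fun u hu => hsupp u fun h => hu (Ioo_subset_Icc_self h)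
    rw [h.deriv_eq, deriv_const])
  have hΦ0' : 0 ≤ Φ0 := (norm_nonneg _).trans (hΦ0 0)
  have hΦ1' : 0 ≤ Φ1 := (norm_nonneg _).trans (hΦ1 0)
  set β : ℝ := ∑ i, ‖B i‖
  have hβ : 0 ≤ β := Finset.sum_nonneg fun i _ => norm_nonneg _
  set M' := max M 0
  have hM' : 0 ≤ M' := le_max_right _ _
  set C0 := max C 0
  have hC0 : 0 ≤ C0 := le_max_right _ _
  set κ : ℝ := (2 * αs + νs)⁻¹
  have hκ : 0 < κ := inv_pos.2 (by linarith)
  set G0 := M' * Φ0 * β
  set G1 := M' * Φ1 * β
  have hG0 : 0 ≤ G0 := by positivity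
  have hG1 : 0 ≤ G1 := by positivity
  set K1 := (G0 + C0) / (νs / 2)
  have hK1 : 0 ≤ K1 := by positivity
  set K2 := (C0 + κ * G1 + 2 * (C0 + K1) * (κ * G0) + C0 * (κ * G0)) / (νs / 2)
  have hK2 : 0 ≤ K2 := by positivity
  set Yc := Real.exp C0 * C0
  have hYc : 0 ≤ Yc := by positivity
  set K3 := K2 + 6 * Yc * K1
  have hK3 : 0 ≤ K3 := by positivity
  set K4 := Real.exp (4 * (m * K1) + m * (κ * G0)) * (m * K3)
  refine ⟨max K1 K4, min (min 1 (νs / (2 * (C0 + 1)))) (1 / (2 * (Yc + 1))), by positivity, ?_⟩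
  intro p ε η a A A0 W V Q R ν α hε hεη hηle hp h
  have hη : 0 < η := hε.trans_le hεη
  have hη1 : η ≤ 1 := hηle.trans ((min_le_left _ _).trans (min_le_left _ _))
  have hεε : ε ^ 2 ≤ ε * η := by rw [sq]; exact mul_le_mul_of_nonneg_left hεη hε.le
  have hεν : C0 * η ≤ νs / 2 := by
    have h1 : η ≤ νs / (2 * (C0 + 1)) := hηle.trans ((min_le_left _ _).trans (min_le_right _ _))
    rw [le_div_iff₀ (by positivity)] at h1
    nlinarith
  have hεY : Yc * η ≤ 1 / 2 := by
    have h1 : η ≤ 1 / (2 * (Yc + 1)) := hηle.trans (min_le_right _ _)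
    rw [le_div_iff₀ (by positivity)] at h1
    nlinarith
  set b := a + m / ε with hb
  have hab : a ≤ b := le_add_of_nonneg_right (by positivity)
  have hba : (b - a) * ε = m := by rw [hb]; field_simp; ring
  have hmem := right_mem_Icc.2 hab
  rcases isEmpty_or_nonempty n with hn | hn
  · have hnn : ∀ x : Op n, ‖x‖ = 0 := fun x => by rw [Subsingleton.elim x 0, norm_zero]
    rw [hnn, hnn]
    have h0 : 0 ≤ max K1 K4 := hK1.trans (le_max_left _ _)
    exact ⟨mul_nonneg h0 hε.le, mul_nonneg h0 hη.le⟩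
  have hCC : ∀ x : ℝ, 0 ≤ x → C * x ≤ C0 * x := fun x hx =>
    mul_le_mul_of_nonneg_right (le_max_left _ _) hx
  set P := ctrlProfile φ B p with hPdef
  set P' := ctrlProfile (deriv φ) B p
  have hp' : ‖p‖ ≤ M' := hp.trans (le_max_left _ _)
  have hP : ∀ s, ‖P s‖ ≤ G0 := fun s => norm_ctrlProfile_le hΦ0 B hp' s
  have hP' : ∀ s, ‖P' s‖ ≤ G1 := fun s => norm_ctrlProfile_le hΦ1 B hp' s
  have hPd : ∀ s, HasDerivAt P (P' s) s := fun s => hasDerivAt_ctrlProfile hφ B p s
  -- first bound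
  set D : ℝ → Op n := fun t => W t - V t with hDdef
  set Cm : ℝ → Op n := fun t => (1/2 : ℝ) • (W t + V t) with hCmdef
  set g : ℝ → Op n := fun t => A t - A0 t with hgdef
  have hD : ∀ t ∈ Icc a b, HasDerivAt D (-(Cm t * D t + D t * Cm t) - ν t • D t + g t) t :=
    fun t ht => ((h.hW t ht).sub (h.hV t ht)).congr_deriv (riccati_sub_deriv (ν t))
  have hWc : ContinuousOn W (Icc a b) := fun t ht => (h.hW t ht).continuousAt.continuousWithinAt
  have hVc : ContinuousOn V (Icc a b) := fun t ht => (h.hV t ht).continuousAt.continuousWithinAt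
  have hDc : ContinuousOn D (Icc a b) := hWc.sub hVc
  have hCmc : ContinuousOn Cm (Icc a b) := (hWc.add hVc).const_smul (1/2 : ℝ)
  have hCmp : ∀ t ∈ Icc a b, (Cm t).PosSemidef := fun t ht =>
    posSemidef_real_smul ((h.hWpos t ht).add (h.hVpos t ht)) (by norm_num)
  have hνl : ∀ t ∈ Icc a b, νs / 2 ≤ ν t := fun t ht => by
    linarith [(abs_le.1 (h.nearν t ht)).1, hCC η hη.le]
  have hDa : D a = 0 := by simp [hDdef, h.start]
  have hgn : ∀ t ∈ Icc a b, ‖g t‖ ≤ (G0 + C0) * ε := fun t ht => by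
    have h1 := norm_add_le (g t - ε • P (ε * (t - a))) (ε • P (ε * (t - a)))
    rw [sub_add_cancel, norm_smul, Real.norm_eq_abs, abs_of_pos hε] at h1
    have h2 : ‖g t - ε • P (ε * (t - a))‖ ≤ C0 * ε := by
      refine (h.hA t ht).trans ?_
      rw [mul_assoc]
      exact (hCC _ (mul_pos hε hη).le).trans
        (mul_le_mul_of_nonneg_left (mul_le_of_le_one_right hε.le hη1) hC0)
    have h3 := mul_le_mul_of_nonneg_left (hP (ε * (t - a))) hε.le
    linarith
  have hgd : ∀ t ∈ Icc a b, ‖D t‖ ≤ K1 * ε := fun t ht => by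
    have hs : Icc a t ⊆ Icc a b := Icc_subset_Icc_right ht.2
    have hDn := damped_bound ht.1 (c := νs / 2) (δ := (G0 + C0) * ε) (by positivity)
      (fun s hs' => hνl s (hs hs')) (h.hν.mono hs) (hCmc.mono hs) (fun s hs' => hCmp s (hs hs'))
      (fun s hs' => hgn s (hs hs')) (fun s hs' => hD s (hs hs'))
    simpa [hDa, K1, div_mul_eq_mul_div] using hDn
  -- second bound
  set e : ℝ → Op n := fun t => (ε * κ) • P (ε * (t - a)) with hedef
  have he : ∀ t, HasDerivAt e ((ε * κ * ε) • P' (ε * (t - a))) t := fun t => by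
    refine (((hPd (ε * (t - a))).scomp t
      (((hasDerivAt_id t).sub_const a).const_mul ε)).const_smul (ε * κ)).congr_deriv ?_
    simp only [mul_one, smul_smul]
  have hec : Continuous e := continuous_iff_continuousAt.2 fun t => (he t).continuousAt
  have hen : ∀ t, ‖e t‖ ≤ κ * G0 * ε := fun t => by
    simp only [hedef, norm_smul, Real.norm_eq_abs, abs_of_pos (mul_pos hε hκ)]
    calc ε * κ * ‖P (ε * (t - a))‖ ≤ ε * κ * G0 := by gcongr; exact hP _
      _ = _ := by ring
  have hea : e a = 0 := by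
    simp only [hedef, sub_self, mul_zero, hPdef, ctrlProfile]
    rw [Finset.sum_eq_zero fun i _ => ?_, smul_zero]
    rw [hsupp _ (by simp), mul_zero, zero_smul]
  have hF := follow_le (αs := αs) (νs := νs) (δ1 := C0 * (ε * η)) (δ2 := κ * G1 * (ε * η))
    (δ3 := (C0 + K1) * η) (δ4 := C0 * η) (by positivity : 0 < νs / 2) hνl h.hν hCmc hCmp hD
    (fun t _ => he t) hDa hea (fun t ht => ?g1) (fun t ht => ?g2) (fun t ht => ?g3)
    (fun t ht => (h.nearν t ht).trans (hCC η hη.le)) (fun t _ => hen t)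
  case g1 =>
    rw [show (2 * αs + νs) • e t = ε • P (ε * (t - a)) by
      simp only [hedef, smul_smul, κ]; congr 1; field_simp]
    exact ((h.hA t ht).trans_eq (mul_assoc _ _ _)).trans (hCC _ (mul_pos hε hη).le)
  case g2 =>
    rw [norm_smul, Real.norm_eq_abs, abs_of_pos (mul_pos (mul_pos hε hκ) hε)]
    calc ε * κ * ε * ‖P' (ε * (t - a))‖ ≤ ε * κ * ε * G1 := by gcongr; exact hP' _
      _ = κ * G1 * ε ^ 2 := by ring
      _ ≤ κ * G1 * (ε * η) := mul_le_mul_of_nonneg_left hεε (by positivity)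
  case g3 =>
    rw [show Cm t - (αs : ℂ) • (1 : Op n) = (V t - (αs : ℂ) • (1 : Op n)) + (1/2 : ℝ) • D t by
      simp only [hCmdef, hDdef]; module]
    refine (norm_add_le _ _).trans ?_
    rw [norm_smul, Real.norm_eq_abs, abs_of_pos (by norm_num : (0:ℝ) < 1/2)]
    linarith [h.nearV t ht, hCC η hη.le, hgd t ht, norm_nonneg (D t),
      mul_le_mul_of_nonneg_left hεη hK1]
  have hF' : ∀ t ∈ Icc a b, ‖D t - e t‖ ≤ K2 * (ε * η) := fun t ht =>
    (hF t ht).trans_eq (by simp only [K2]; ring)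
  -- the interaction map
  obtain ⟨S, hS0, hS⟩ := exists_fwd hVc
  have href := scalar_ref hVc h.hα h.hR hS0 hS (h.nearα.trans (hCC η hη.le))
    (mul_le_of_le_one_right hC0 hη1) (by rw [← mul_assoc]; exact hεY)
  set K : ℝ → Op n := fun t => R t * D t * S t with hKdef
  have hKn : ∀ t ∈ Icc a b, ‖K t‖ ≤ 4 * K1 * ε ∧ ‖K t - e t‖ ≤ K3 * (ε * η) := fun t ht => by
    obtain ⟨r1, r2⟩ := href t ht (D t)
    refine ⟨r1.trans (by linarith [hgd t ht]), ?_⟩
    rw [show K t - e t = (R t * D t * S t - D t) + (D t - e t) by simp only [hKdef]; abel]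
    refine (norm_add_le _ _).trans ?_
    have h2 := mul_le_mul_of_nonneg_left (hgd t ht)
      (by positivity : 0 ≤ 4 * (Real.exp C0 * (C0 * η)))
    have : 0 ≤ Yc * K1 * (ε * η) := by positivity
    have h3 : 4 * (Real.exp C0 * (C0 * η)) * (K1 * ε) = 4 * (Yc * K1 * (ε * η)) := by
      simp only [Yc]; ring
    have h4 : K3 * (ε * η) = K2 * (ε * η) + 6 * (Yc * K1 * (ε * η)) := by simp only [K3]; ring
    linarith [hF' t ht]
  obtain ⟨Z, hZ0, hZ⟩ := exists_linear_ode
    (fun t => -((ContinuousLinearMap.mul ℝ (Op n)).flip (e t)))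
    (((ContinuousLinearMap.mul ℝ (Op n)).flip.continuous.comp hec).neg) a 1
  have hZ' : ∀ t, HasDerivAt Z (-(Z t * e t)) t := fun t => by simpa using hZ t
  have hKc : ContinuousOn K (Icc a b) := by
    have hRc : ContinuousOn R (Icc a b) := fun t ht => (h.hR.2 t ht).continuousAt.continuousWithinAt
    have hSc : ContinuousOn S (Icc a b) := fun t ht => (hS t ht).continuousAt.continuousWithinAt
    exact (hRc.mul hDc).mul hSc
  have hU := propagator_sub_le (Y := fun u => Q u * S u) (Z := Z) (K := K) (L := e) hab hKc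
    hec.continuousOn (interaction_deriv h.hQ h.hR hS0 hS) (fun t _ => hZ' t)
    (by simp [hS0, h.hQ.1]) hZ0
  have hinv : (R b)⁻¹ = S b := Matrix.inv_eq_right_inv (back_mul_fwd h.hR hS0 hS b hmem)
  have hZb : Z b = (List.ofFn fun i => exp ((-(p i) / (2 * αs + νs)) • B i)).prod := by
    rw [hb, profile_word hφ.continuous hsupp hint B p hε hZ0 hZ']
    simp only [κ, div_eq_mul_inv, neg_mul, mul_comm]
  rw [hinv, ← hZb]
  refine ⟨(hgd b hmem).trans (mul_le_mul_of_nonneg_right (le_max_left _ _) hε.le), hU.trans ?_⟩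
  refine le_trans ?_ (mul_le_mul_of_nonneg_right (le_max_right K1 K4) hη.le)
  have i1 := integral_le_const hab hKc.norm fun t ht => (hKn t ht).1
  have i2 := integral_le_const hab hec.continuousOn.norm fun t _ => hen t
  have i3 := integral_le_const hab (hKc.sub hec.continuousOn).norm fun t ht => (hKn t ht).2
  rw [show (b - a) * (4 * K1 * ε) = 4 * K1 * ((b - a) * ε) by ring, hba] at i1
  rw [show (b - a) * (κ * G0 * ε) = κ * G0 * ((b - a) * ε) by ring, hba] at i2
  rw [show (b - a) * (K3 * (ε * η)) = K3 * η * ((b - a) * ε) by ring, hba] at i3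
  calc _ ≤ Real.exp (4 * (m * K1) + m * (κ * G0)) * (K3 * η * m) := by
        refine mul_le_mul (Real.exp_le_exp.2 (by linarith)) i3
          (intervalIntegral.integral_nonneg hab fun u _ => norm_nonneg _) (Real.exp_nonneg _)
    _ = K4 * η := by ring

/-- Where the backward map `R` of the reference is known, the difference of two solutions enters
multiplied by the growth before it. -/
theorem tail_difference {A W V Q R : ℝ → Op n} {ν : ℝ → ℝ} {a b c : ℝ} (hab : a ≤ b) (hc : 0 < c)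
    (hν : ∀ t ∈ Icc a b, c ≤ ν t) (hνc : ContinuousOn ν (Icc a b))
    (hW : IsRiccati A ν W a b) (hV : IsRiccati A ν V a b)
    (hWpos : ∀ t ∈ Icc a b, (W t).PosSemidef) (hVpos : ∀ t ∈ Icc a b, (V t).PosSemidef)
    (hQ : IsBack W Q a b) (hR : IsBack V R a b) :
    ∃ G : Op n, ‖G‖ ≤ 1 / c ∧ Q b = (1 - G * (W a - V a)) * R b := by
  have hWc : ContinuousOn W (Icc a b) := fun t ht => (hW t ht).continuousAt.continuousWithinAt
  have hVc : ContinuousOn V (Icc a b) := fun t ht => (hV t ht).continuousAt.continuousWithinAt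
  obtain ⟨S, hS0, hS⟩ := exists_fwd hVc
  obtain ⟨ν', hν'c, hν'⟩ := exists_ext hνc
  set e : ℝ → ℝ := fun t => Real.exp (-∫ u in a..t, ν' u) with hedef
  have he : ∀ t ∈ Icc a b, HasDerivAt e (-ν t * e t) t := fun t ht =>
    (hν'c.integral_hasStrictDerivAt a t).hasDerivAt.neg.exp.congr_deriv (by
      simp only [hedef, hν' ht, Pi.neg_apply]; ring)
  have hP : ∀ t ∈ Icc a b, HasDerivAt (fun u => star (Q u)) (-(W t * star (Q t))) t := fun t ht =>
    (hQ.2 t ht).star.congr_deriv (by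
      rw [star_neg, star_mul, show star (W t) = W t from (hWpos t ht).1])
  have hI1 := riccati_diff hνc hW hV hP hR.2 he (by simp [hedef]) (by simp [hQ.1]) hR.1
  set f : ℝ → Op n := fun t => e t • (Q t * star (Q t)) with hfdef
  have hQc : ContinuousOn Q (Icc a b) := fun t ht => (hQ.2 t ht).continuousAt.continuousWithinAt
  have hec : ContinuousOn e (Icc a b) := fun t ht => (he t ht).continuousAt.continuousWithinAt
  have hfc : ContinuousOn f (Icc a b) := hec.smul (hQc.mul hQc.star)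
  have hfi : IntervalIntegrable f volume a b := hfc.intervalIntegrable_of_Icc hab
  set L : Op n →L[ℝ] Op n := -((ContinuousLinearMap.mul ℝ (Op n)).flip (W a - V a))
  have hU : ∀ t ∈ Icc a b, HasDerivAt (fun u => Q u * S u) (L (f t)) t := fun t ht => by
    refine (interaction_deriv hQ hR hS0 hS t ht).congr_deriv ?_
    have h1 : R t * S t = 1 := back_mul_fwd hR hS0 hS t ht
    have h2 : S t * R t = 1 := mul_eq_one_comm.1 h1
    rw [hI1 t ht]
    simp only [L, hfdef, _root_.neg_apply, ContinuousLinearMap.flip_apply,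
      ContinuousLinearMap.mul_apply', mul_smul_comm, smul_mul_assoc]
    rw [show Q t * S t * (R t * (star (Q t) * (W a - V a) * R t) * S t) =
      Q t * (S t * R t) * (star (Q t) * (W a - V a)) * (R t * S t) by noncomm_ring, h1, h2]
    noncomm_ring
  refine ⟨∫ t in a..b, f t, ?_, ?_⟩
  · have hcexp : ∀ t, HasDerivAt (fun u => -(Real.exp (-(c * (u - a))) / c))
        (Real.exp (-(c * (t - a)))) t := fun t => by
      refine ((((hasDerivAt_id t).sub_const a).const_mul c).neg.exp.div_const c).neg.congr_deriv ?_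
      simp only [id_eq, mul_one, Pi.neg_apply]
      field_simp
    have h1 : ∀ t ∈ Icc a b, ‖f t‖ ≤ Real.exp (-(c * (t - a))) := fun t ht => by
      have hs : Icc a t ⊆ Icc a b := Icc_subset_Icc_right ht.2
      have hQn : ‖Q t‖ ≤ 1 := by
        have := back_norm_le hQ hWc (m := fun _ => 0) continuous_const
          (fun s hs' => by simpa using hWpos s hs') t ht
        simpa using this
      have hel : e t ≤ Real.exp (-(c * (t - a))) := by
        refine Real.exp_le_exp.2 (neg_le_neg ?_)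
        have := intervalIntegral.integral_mono_on ht.1 (intervalIntegrable_const (μ := volume) (c := c))
          (hν'c.intervalIntegrable _ _) (fun u hu => by rw [hν' (hs hu)]; exact hν u (hs hu))
        rw [intervalIntegral.integral_const, smul_eq_mul] at this
        linarith
      simp only [hfdef, norm_smul, Real.norm_eq_abs, hedef, Real.abs_exp]
      refine (mul_le_of_le_one_right (Real.exp_nonneg _) ?_).trans hel
      refine (norm_mul_le _ _).trans ?_
      rw [norm_star]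
      exact mul_le_one₀ hQn (norm_nonneg _) hQn
    have hint : IntervalIntegrable (fun t => Real.exp (-(c * (t - a)))) volume a b :=
      Continuous.intervalIntegrable (by fun_prop) _ _
    calc ‖∫ t in a..b, f t‖ ≤ ∫ t in a..b, Real.exp (-(c * (t - a))) :=
          intervalIntegral.norm_integral_le_of_norm_le hab
            (Filter.Eventually.of_forall fun t ht => h1 t (Ioc_subset_Icc_self ht)) hint
      _ = -(Real.exp (-(c * (b - a))) / c) - -(Real.exp (-(c * (a - a))) / c) :=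
          intervalIntegral.integral_eq_sub_of_hasDerivAt (fun t _ => hcexp t) hint
      _ ≤ 1 / c := by
          have : 0 ≤ Real.exp (-(c * (b - a))) / c := by positivity
          simp only [sub_self, mul_zero, neg_zero, Real.exp_zero]
          linarith
  · have hLc : ContinuousOn (fun t => L (f t)) (Icc a b) := L.continuous.comp_continuousOn hfc
    have h1 := intervalIntegral.integral_eq_sub_of_hasDerivAt
      (f := fun u => Q u * S u) (fun t ht => hU t (uIcc_of_le hab ▸ ht))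
      (hLc.intervalIntegrable_of_Icc hab)
    rw [L.intervalIntegral_comp_comm hfi] at h1
    simp only [L, _root_.neg_apply, ContinuousLinearMap.flip_apply,
      ContinuousLinearMap.mul_apply', hQ.1, hS0, one_mul] at h1
    have h2 : S b * R b = 1 :=
      mul_eq_one_comm.1 (back_mul_fwd hR hS0 hS b (right_mem_Icc.2 hab))
    rw [eq_comm, sub_eq_iff_eq_add] at h1
    calc Q b = Q b * S b * R b := by rw [mul_assoc, h2, mul_one]
      _ = _ := by rw [h1]; noncomm_ring

/-- After the control both solutions follow the free coefficient: the difference decays and the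
interaction map moves by at most the jump. -/
theorem stage_tail {A W V Q R : ℝ → Op n} {ν : ℝ → ℝ} {a b c : ℝ} (hab : a ≤ b) (hc : 0 < c)
    (hν : ∀ t ∈ Icc a b, c ≤ ν t) (hνc : ContinuousOn ν (Icc a b))
    (hW : IsRiccati A ν W a b) (hV : IsRiccati A ν V a b)
    (hWpos : ∀ t ∈ Icc a b, (W t).PosSemidef) (hVpos : ∀ t ∈ Icc a b, (V t).PosSemidef)
    (hQ : IsBack W Q a b) (hR : IsBack V R a b) :
    ‖W b - V b‖ ≤ Real.exp (-c * (b - a)) * ‖W a - V a‖ ∧
      ‖Q b * (R b)⁻¹ - 1‖ ≤ ‖W a - V a‖ / c := by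
  have hWc : ContinuousOn W (Icc a b) := fun t ht => (hW t ht).continuousAt.continuousWithinAt
  have hVc : ContinuousOn V (Icc a b) := fun t ht => (hV t ht).continuousAt.continuousWithinAt
  refine ⟨?_, ?_⟩
  · have := damped_le (C := fun t => (1/2 : ℝ) • (W t + V t)) (R := fun t => W t - V t)
      (g := fun _ => 0) (δ := 0) hab hc hν hνc ((hWc.add hVc).const_smul (1/2 : ℝ))
      (fun t ht => posSemidef_real_smul ((hWpos t ht).add (hVpos t ht)) (by norm_num))
      continuousOn_const (fun _ _ => by simp) (fun t ht =>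
        ((hW t ht).sub (hV t ht)).congr_deriv (by rw [riccati_sub_deriv, sub_self]))
    simpa using this
  · obtain ⟨G, hG, hGQ⟩ := tail_difference hab hc hν hνc hW hV hWpos hVpos hQ hR
    obtain ⟨S, hS0, hS⟩ := exists_fwd hVc
    have h1 := back_mul_fwd hR hS0 hS b (right_mem_Icc.2 hab)
    rw [Matrix.inv_eq_right_inv h1, hGQ, mul_assoc, h1, mul_one, sub_sub_cancel_left, norm_neg]
    calc ‖G * (W a - V a)‖ ≤ 1 / c * ‖W a - V a‖ :=
          (norm_mul_le _ _).trans (mul_le_mul_of_nonneg_right hG (norm_nonneg _))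
      _ = _ := by ring

end Vale.Agent.P225
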